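import Vale.Agent.P146.H432.XCurve

/-!
# P146: the point at which the rows are used

`Pt n β x1 s c x` collects all facts at the crossing point `x` (window `s`, level `c`, lower end
`x1`): the value, the slope, the base gradient, the comparison with the cubic to the left, and the
contradiction hypothesis `log E e^{x1(F-EF)} ≤ 3/2`.
-/

open MeasureTheory ProbabilityTheory Filter Topology

namespace Vale.Agent.P146.H432

open Vale.Agent.P157.Lv Vale.Agent.P146.H425 Vale.Agent.P146.H332 Vale.Agent.P146.H325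
open Vale.Agent.P146.R1 Vale.Agent.P146.H767 Vale.Agent.P146.H522
open Vale.Agent.P146.H946 (Dz Hz)

set_option linter.unusedSectionVars false

/-- the logarithm of the centered exponential moment -/
noncomputable def Lg (n : ℕ) (β x : ℝ) : ℝ := Real.log (∫ g, Real.exp (x * (freeEnergy n β g -
  ∫ h, freeEnergy n β h ∂(disorder n))) ∂(disorder n))

/-- the slope in the exponent of the functional of one window -/
noncomputable def Gn (n : ℕ) (β x s : ℝ) : ℝ := 1 / 2 * ∫ t in (1 - s)..1, Rn n β x s t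

lemma Dn_nonneg (n : ℕ) (β : ℝ) {x s : ℝ} (hx : 0 < x) (hs : 0 ≤ s) (hs1 : s ≤ 1) :
    0 ≤ Dn n β x s := DD_nonneg (c11_lz (β / √n) (SkS (n := n))) hx hs hs1

lemma Dn_mono (n : ℕ) (β : ℝ) {x y s : ℝ} (hx : 0 < x) (hxy : x ≤ y) (hs : 0 ≤ s) (hs1 : s ≤ 1) :
    Dn n β x s ≤ Dn n β y s :=
  DD_mono (D := Dz (β / √n)) (c11_lz (β / √n) (SkS (n := n))) (cv_lz (β / √n) (SkS (n := n)))
    hx hxy hs hs1

lemma Dn_mono_s (n : ℕ) (β : ℝ) {x s s' : ℝ} (hx : 0 < x) (hs : 0 ≤ s) (hss : s ≤ s')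
    (hs1 : s' ≤ 1) : Dn n β x s ≤ Dn n β x s' :=
  DD_mono_s (c11_lz (β / √n) (SkS (n := n))) hx hs hss hs1

lemma Dn_tan' (n : ℕ) (β : ℝ) {x y s : ℝ} (hx : 0 < x) (hy : 0 < y) (hs : 0 ≤ s) (hs1 : s ≤ 1) :
    Dn n β x s + (y - x) * Gn n β x s ≤ Dn n β y s := Dn_tan n β hx hy hs hs1

lemma Gn_nonneg (n : ℕ) (β : ℝ) {x s : ℝ} (hx : 0 < x) (hs : 0 ≤ s) : 0 ≤ Gn n β x s := by
  unfold Gn
  refine mul_nonneg (by norm_num) (intervalIntegral.integral_nonneg (by linarith) fun t _ => ?_)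
  exact Qin_nonneg hx

lemma Gn_mono (n : ℕ) (β : ℝ) {x y s : ℝ} (hx : 0 < x) (hxy : x ≤ y) (hs : 0 ≤ s) (hs1 : s ≤ 1) :
    Gn n β x s ≤ Gn n β y s := by
  have := slope_mono (D := Dz (β / √n)) (c11_lz (β / √n) (SkS (n := n)))
    (cv_lz (β / √n) (SkS (n := n))) hx hxy hs hs1
  unfold Gn Rn
  linarith

/-- `x D(x, s) ≤ y D(y, s')`-type bound: below `x1` everything is at most `3/(2 x1)`. -/
lemma Dn_le_of_Lg (n : ℕ) (β : ℝ) {x1 y s : ℝ} (hy : 0 < y) (hyx : y ≤ x1) (hs : 0 ≤ s)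
    (hs1 : s ≤ 1) (hH : Lg n β x1 ≤ 3 / 2) : Dn n β y s ≤ 3 / 2 / x1 := by
  have hx1 : 0 < x1 := hy.trans_le hyx
  have h1 := Dn_mono n β hy hyx hs hs1
  have h2 := log_ge_Dn n β hx1 hs hs1
  rw [le_div_iff₀ hx1]
  have h3 := mul_le_mul_of_nonneg_right h1 hx1.le
  have h4 : x1 * Dn n β x1 s ≤ 3 / 2 := h2.trans hH
  linarith

/-- the contradiction hypothesis -/
lemma Lg_le_of_sd (n : ℕ) (β : ℝ) {x : ℝ} (hx : 0 < x)
    (h : √(Var[freeEnergy n β; disorder n]) < 1 / (18 * x) - 1) : Lg n β x ≤ 3 / 2 := by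
  by_contra hcon
  push Not at hcon
  have := H641.sd_of_tail n β hx hcon
  linarith

/-- **All facts at the crossing point.** -/
structure Pt (n : ℕ) (β x1 s c x : ℝ) : Prop where
  x10 : 0 < x1
  lt : x1 < x
  le1 : x ≤ 1
  s0 : 0 < s
  s1 : s ≤ 1
  c0 : 0 < c
  /-- the value: `c s x³` -/
  val : Dn n β x s = c * s * x ^ 3
  /-- the slope is at least `3 c s x²` -/
  slope : 3 * c * s * x ^ 2 ≤ Gn n β x s
  /-- the squared base gradient is at most `2 c x²` -/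
  base : Kn n β x s ≤ 2 * c * x ^ 2
  /-- comparison to the left -/
  left : ∀ y, x / 2 ≤ y → y < x → Dn n β y s < c * s * y ^ 3
  /-- the contradiction hypothesis -/
  hyp : Lg n β x1 ≤ 3 / 2

variable {n : ℕ} {β x1 s c x : ℝ}

lemma Pt.x0 (h : Pt n β x1 s c x) : 0 < x := h.x10.trans h.lt

/-- the secant to the left -/
theorem Pt.sec (h : Pt n β x1 s c x) {η : ℝ} (h0 : 0 < η) (h1 : η ≤ 1 / 2) :
    (3 - 3 * η) * η * (c * s * x ^ 3) ≤ Dn n β x s - Dn n β ((1 - η) * x) s := by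
  have hx := h.x0
  have h2 := h.left ((1 - η) * x) (by nlinarith) (by nlinarith)
  have hc : 0 < c * s * x ^ 3 := by have := h.c0; have := h.s0; positivity
  rw [h.val]
  have e : c * s * ((1 - η) * x) ^ 3 = (1 - η) ^ 3 * (c * s * x ^ 3) := by ring
  rw [e] at h2
  have h3 : (3 - 3 * η) * η ≤ 1 - (1 - η) ^ 3 := by nlinarith [pow_pos h0 3]
  nlinarith [mul_le_mul_of_nonneg_right h3 hc.le]

/-- the longer window -/
theorem AntiN.longer (hA : AntiN n β) {y τ : ℝ} (hy : 0 < y) (hy1 : y ≤ 1) (hs : 0 < s)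
    (hτ : 0 ≤ τ) (hsτ : s + τ ≤ 1) : Dn n β y (s + τ) ≤ (1 + τ / s) * Dn n β y s := by
  have h1 := hA.dd hy hy1 hs.le (by linarith : s ≤ s + τ) hsτ
  have e : (1 + τ / s) * Dn n β y s = (s + τ) * Dn n β y s / s := by field_simp
  rw [e, le_div_iff₀ hs]
  linarith

/-- the base bound of the bracket -/
theorem AntiN.diff (hA : AntiN n β) {y τ : ℝ} (hy : 0 < y) (hy1 : y ≤ 1) (hs : 0 < s)
    (hτ : 0 ≤ τ) (hsτ : s + τ ≤ 1) :
    Dn n β y (s + τ) - Dn n β y s ≤ τ / s * Dn n β y s := by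
  have := hA.longer hy hy1 hs hτ hsτ
  linarith

/-- **The comparison below with the longer window**: the lower side of the slope. -/
theorem Pt.sec_long (hA : AntiN n β) (h : Pt n β x1 s c x) {η τ : ℝ} (h0 : 0 < η) (h1 : η ≤ 1 / 2)
    (hτ : 0 ≤ τ) (hsτ : s + τ ≤ 1) :
    ((3 - 3 * η) * η - τ / s) * (c * s * x ^ 3) ≤
      Dn n β x s - Dn n β ((1 - η) * x) (s + τ) := by
  have hx := h.x0
  have hy : 0 < (1 - η) * x := by nlinarith
  have h2 := h.sec h0 h1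
  have h3 := hA.longer (y := (1 - η) * x) (s := s) (τ := τ) hy (by nlinarith [h.le1]) h.s0 hτ hsτ
  have h4 : Dn n β ((1 - η) * x) s ≤ c * s * x ^ 3 := by
    rw [← h.val]
    exact Dn_mono n β hy (by nlinarith) h.s0.le h.s1
  have h5 : τ / s * Dn n β ((1 - η) * x) s ≤ τ / s * (c * s * x ^ 3) :=
    mul_le_mul_of_nonneg_left h4 (div_nonneg hτ h.s0.le)
  nlinarith

/-- to the right of the crossing point -/
theorem Pt.right (h : Pt n β x1 s c x) {y : ℝ} (hy : x ≤ y) :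
    Dn n β y s ≤ (y - 2 / 3 * x) * Gn n β y s ∧ c * s * x ^ 3 + (y - x) * Gn n β x s ≤ Dn n β y s := by
  have hx := h.x0
  have hy0 : 0 < y := hx.trans_le hy
  have h1 := Dn_tan' n β (x := y) (y := x) hy0 hx h.s0.le h.s1
  have h2 := Dn_tan' n β (x := x) (y := y) hx hy0 h.s0.le h.s1
  have h3 := Gn_mono n β hx hy h.s0.le h.s1
  rw [h.val] at h1 h2
  refine ⟨?_, h2⟩
  have h4 := h.slope.trans h3
  have h5 : c * s * x ^ 3 ≤ x / 3 * Gn n β y s := by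
    have := mul_le_mul_of_nonneg_left h4 (by positivity : 0 ≤ x / 3)
    refine (le_of_eq ?_).trans this
    ring
  nlinarith

/-- **The point, windows `n^(-w) x²`.** -/
theorem point_sq {β : ℝ} (hβ : 1 < β) {a d e w : ℝ} (ha0 : 0 < a) (ha : a < 1 / 15)
    (hd : 2 * a < d) (he : e ≤ 1 / 6 - a) (hw : 0 ≤ w) (hdw : d + w < 6 * e) :
    ∀ᶠ n : ℕ in atTop, AntiN n β →
      (n : ℝ) ^ (1 / 6 - e) / 36 ≤ √(Var[freeEnergy n β; disorder n]) ∨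
      ∃ x, (n : ℝ) ^ (-(1 / 6) + e) < x ∧ x ≤ (n : ℝ) ^ (-a) ∧
        Pt n β ((n : ℝ) ^ (-(1 / 6) + e)) ((n : ℝ) ^ (-w) * x ^ 2) ((n : ℝ) ^ (1 - d)) x := by
  filter_upwards [start hβ ha0 ha hd, ev_big (a := 6 * e - d - w) (C := 32) (by linarith),
    ev_big (a := 1 / 6 - e) (C := 36) (by linarith), eventually_ge_atTop 1] with n h1 h2 h3 h4 hA
  have hn1 : (1 : ℝ) ≤ n := by exact_mod_cast h4
  have hn0 : (0 : ℝ) < n := by linarith
  rcases le_or_gt ((n : ℝ) ^ (1 / 6 - e) / 36) (√(Var[freeEnergy n β; disorder n])) with hV | hV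
  · exact Or.inl hV
  right
  obtain ⟨x1, hx1e⟩ : ∃ x1, x1 = (n : ℝ) ^ (-(1 / 6) + e) := ⟨_, rfl⟩
  have hx1 : 0 < x1 := by rw [hx1e]; exact Real.rpow_pos_of_pos hn0 _
  have hX1 : (n : ℝ) ^ (-a) ≤ 1 := Real.rpow_le_one_of_one_le_of_nonpos hn1 (by linarith)
  have hw1 : (n : ℝ) ^ (-w) ≤ 1 := Real.rpow_le_one_of_one_le_of_nonpos hn1 (by linarith)
  have hw0 : 0 < (n : ℝ) ^ (-w) := Real.rpow_pos_of_pos hn0 _
  have hc0 : 0 < (n : ℝ) ^ (1 - d) := Real.rpow_pos_of_pos hn0 _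
  have hx1X : x1 ≤ (n : ℝ) ^ (-a) := by
    rw [hx1e]; exact Real.rpow_le_rpow_of_exponent_le hn1 (by linarith)
  -- the hypothesis
  have hH : Lg n β x1 ≤ 3 / 2 := by
    refine Lg_le_of_sd n β hx1 (hV.trans_le ?_)
    have e1 : 1 / (18 * x1) = (n : ℝ) ^ (1 / 6 - e) / 18 := by
      have e2 : (-(1 / 6) + e : ℝ) = -(1 / 6 - e) := by ring
      rw [hx1e, e2, Real.rpow_neg hn0.le]
      field_simp
    rw [e1]
    linarith
  have hbig : 32 < (n : ℝ) ^ (1 - d) * ((n : ℝ) ^ (-w) * x1 ^ 2) * x1 ^ 4 := by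
    refine h2.trans_le (le_of_eq ?_)
    rw [hx1e, ← Real.rpow_natCast, ← Real.rpow_natCast, ← Real.rpow_mul hn0.le,
      ← Real.rpow_mul hn0.le, ← Real.rpow_add hn0, ← Real.rpow_add hn0, ← Real.rpow_add hn0]
    congr 1
    push_cast
    ring
  have hSpos : ∀ x, x1 ≤ x → 0 < (n : ℝ) ^ (-w) * x ^ 2 := fun x hx => by
    have := hx1.trans_le hx
    positivity
  have hSle : ∀ x, x1 ≤ x → x ≤ (n : ℝ) ^ (-a) → (n : ℝ) ^ (-w) * x ^ 2 ≤ 1 := fun x b1 b2 => by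
    have c1 : x ≤ 1 := b2.trans hX1
    have c2 := hx1.trans_le b1
    have c3 : x ^ 2 ≤ 1 := pow_le_one₀ c2.le c1
    calc (n : ℝ) ^ (-w) * x ^ 2 ≤ 1 * 1 := mul_le_mul hw1 c3 (by positivity) (by norm_num)
      _ = 1 := by norm_num
  have l1 : Dn n β x1 ((n : ℝ) ^ (-w) * x1 ^ 2) <
      (n : ℝ) ^ (1 - d) * ((n : ℝ) ^ (-w) * x1 ^ 2) * x1 ^ 3 := by
    refine (Dn_le_of_Lg n β hx1 le_rfl (hSpos x1 le_rfl).le (hSle x1 le_rfl hx1X) hH).trans_lt ?_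
    rw [div_lt_iff₀ hx1]
    have e : (n : ℝ) ^ (1 - d) * ((n : ℝ) ^ (-w) * x1 ^ 2) * x1 ^ 3 * x1 =
      (n : ℝ) ^ (1 - d) * ((n : ℝ) ^ (-w) * x1 ^ 2) * x1 ^ 4 := by ring
    rw [e]
    linarith
  obtain ⟨x, a1, a2, a3, a4, a5⟩ := cross_curve (D := Dn n β) (G := Gn n β)
    (S := fun x => (n : ℝ) ^ (-w) * x ^ 2) (c := (n : ℝ) ^ (1 - d)) hx1X
    (fun z b1 b2 x y b3 _ b5 _ => Dn_tan' n β (hx1.trans_le b3) (hx1.trans_le b5)
      (hSpos z b1).le (hSle z b1 b2)) (fun x b1 _ => hSpos x b1)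
    (fun x y z b1 b2 b3 b4 b5 => hA.dd (hx1.trans_le b1) (b2.trans hX1)
      (hSpos y b3).le (by have := hx1.trans_le b3; gcongr) (hSle z (b3.trans b4) b5)) l1
    (h1 hA.conc _ (hSpos _ hx1X).le (hSle _ hx1X le_rfl))
  have hx : 0 < x := hx1.trans a1
  have hs := hSpos x a1.le
  refine ⟨x, by rw [← hx1e]; exact a1, a2, ?_⟩
  rw [← hx1e]
  have hb := (hA.conc x hx (a2.trans hX1) _ hs.le (hSle x a1.le a2)).1
  refine ⟨hx1, a1, a2.trans hX1, hs, hSle x a1.le a2, hc0, a3, ?_, ?_, ?_, hH⟩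
  · refine le_trans (le_of_eq ?_) a4
    ring
  · rw [a3] at hb
    have e1 : (n : ℝ) ^ (1 - d) * ((n : ℝ) ^ (-w) * x ^ 2) * x ^ 3 =
      x / 2 * ((n : ℝ) ^ (-w) * x ^ 2) * (2 * (n : ℝ) ^ (1 - d) * x ^ 2) := by ring
    have e2 : x / 2 * ((n : ℝ) ^ (-w) * x ^ 2 * Kn n β x ((n : ℝ) ^ (-w) * x ^ 2)) =
      x / 2 * ((n : ℝ) ^ (-w) * x ^ 2) * Kn n β x ((n : ℝ) ^ (-w) * x ^ 2) := by ring
    rw [e1, e2] at hb
    exact le_of_mul_le_mul_left hb (by positivity)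
  · intro y b1 b2
    rcases le_or_gt x1 y with h | h
    · exact (a5 y h b2).2
    · have hy : 0 < y := by linarith
      refine (Dn_le_of_Lg n β hy h.le hs.le (hSle x a1.le a2) hH).trans_lt ?_
      have hy2 : x1 / 2 ≤ y := by linarith
      have hy3 : (x1 / 2) ^ 3 ≤ y ^ 3 := pow_le_pow_left₀ (by positivity) hy2 3
      have hxx : x1 ^ 2 ≤ x ^ 2 := pow_le_pow_left₀ hx1.le a1.le 2
      rw [div_lt_iff₀ hx1]
      have k1 : (n : ℝ) ^ (1 - d) * ((n : ℝ) ^ (-w) * x1 ^ 2) * x1 ^ 4 / 8 ≤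
          (n : ℝ) ^ (1 - d) * ((n : ℝ) ^ (-w) * x ^ 2) * y ^ 3 * x1 := by
        calc (n : ℝ) ^ (1 - d) * ((n : ℝ) ^ (-w) * x1 ^ 2) * x1 ^ 4 / 8 =
            (n : ℝ) ^ (1 - d) * ((n : ℝ) ^ (-w) * x1 ^ 2) * (x1 / 2) ^ 3 * x1 := by ring
          _ ≤ (n : ℝ) ^ (1 - d) * ((n : ℝ) ^ (-w) * x ^ 2) * y ^ 3 * x1 := by gcongr
      linarith

/-- **The interface.** -/
theorem third_of_point {β : ℝ} (hβ : 1 < β) (hA : ∀ᶠ n : ℕ in atTop, AntiN n β)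
    (hrows : ∀ e : ℝ, 0 < e → e ≤ 1 / 12 → ∃ a d w : ℝ, 0 < a ∧ a < 1 / 15 ∧ 2 * a < d ∧ 0 ≤ w ∧
      d + w < 6 * e ∧ ∀ᶠ n : ℕ in atTop, ∀ x : ℝ, (n : ℝ) ^ (-(1 / 6) + e) < x →
        x ≤ (n : ℝ) ^ (-a) → √(Var[freeEnergy n β; disorder n]) ≤ (n : ℝ) ^ (1 / 6 - e) / 36 →
        AntiN n β →
        ¬ Pt n β ((n : ℝ) ^ (-(1 / 6) + e)) ((n : ℝ) ^ (-w) * x ^ 2) ((n : ℝ) ^ (1 - d)) x) :
    ∀ γ : ℝ, γ < 1 / 3 → ∀ᶠ n : ℕ in atTop, (n : ℝ) ^ γ ≤ Var[freeEnergy n β; disorder n] := by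
  intro γ hγ
  obtain ⟨e, he⟩ : ∃ e : ℝ, e = min ((1 / 3 - γ) / 4) (1 / 12) := ⟨_, rfl⟩
  have he1 : e ≤ (1 / 3 - γ) / 4 := by rw [he]; exact min_le_left _ _
  have he2 : e ≤ 1 / 12 := by rw [he]; exact min_le_right _ _
  have he0 : 0 < e := by rw [he]; exact lt_min (by linarith) (by norm_num)
  obtain ⟨a, d, w, h1, h2, h3, h4, h5, h6⟩ := hrows e he0 he2
  filter_upwards [point_sq hβ h1 h2 h3 (by linarith) h4 h5, hA, h6,
    ev_big (a := 1 / 3 - 2 * e - γ) (C := 36 ^ 2) (by linarith), eventually_ge_atTop 1]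
    with n k1 k2 k3 k4 k5
  have hn0 : (0 : ℝ) < n := by exact_mod_cast k5
  have key : (n : ℝ) ^ (1 / 6 - e) / 36 ≤ √(Var[freeEnergy n β; disorder n]) := by
    rcases k1 k2 with h | ⟨x, b1, b2, b3⟩
    · exact h
    · by_contra hcon
      push Not at hcon
      exact k3 x b1 b2 hcon.le k2 b3
  have h7 : ((n : ℝ) ^ (1 / 6 - e) / 36) ^ 2 ≤ Var[freeEnergy n β; disorder n] := by
    have := pow_le_pow_left₀ (by positivity) key 2
    rwa [Real.sq_sqrt (variance_nonneg _ _)] at this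
  refine le_trans ?_ h7
  rw [div_pow, le_div_iff₀ (by norm_num), ← Real.rpow_natCast ((n : ℝ) ^ (1 / 6 - e)),
    ← Real.rpow_mul hn0.le]
  have e1 : ((1 / 6 - e) * ((2 : ℕ) : ℝ) : ℝ) = γ + (1 / 3 - 2 * e - γ) := by push_cast; ring
  rw [e1, Real.rpow_add hn0]
  exact mul_le_mul_of_nonneg_left k4.le (by positivity)

end Vale.Agent.P146.H432
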