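import Vale.Agent.P146.H432.XPoint
import Vale.Agent.P146.H325.Pos

/-!
# P146: a point near the crossing point where the slope is regular

Between `xs` and `(1 + n^(-c1)) xs` there is a point `x` such that the slope of the functional of
one window grows at most by the factor `1 + n^(-c6)` over the interval
`[(1 - n^(-c5)) x, (1 + n^(-c5)) x]`.
-/

open MeasureTheory ProbabilityTheory Filter Topology

namespace Vale.Agent.P146.H432

open Vale.Agent.P157.Lv Vale.Agent.P146.H425 Vale.Agent.P146.H332 Vale.Agent.P146.H325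
open Vale.Agent.P146.R1 Vale.Agent.P146.H767 Vale.Agent.P146.H522
open Vale.Agent.P146.H946 (Dz Hz)

set_option linter.unusedSectionVars false

section gen

variable {κ : Type} [Fintype κ] {F : (κ → ℝ) → ℝ} {D : κ → (κ → ℝ) → ℝ} {B L : ℝ}

/-- the law of the window is a probability -/
lemma Ein_const (h : C11 F D B L) {x s t : ℝ} (hx : 0 < x) (h0 : 1 - s ≤ t) (h1 : t ≤ 1)
    (c : ℝ) : Ein x s t F (fun _ => c) = c := by
  unfold Ein pin
  have : ∀ z : κ → ℝ, (∫ w, Real.exp (x * uu x t F (√(1 - s) • z + √(t - (1 - s)) • w)) * c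
      ∂(gI κ)) * Real.exp (-x * uu x (1 - s) F (√(1 - s) • z)) = c := by
    intro z
    rw [integral_mul_const, uu_step h hx h0 h1, mul_right_comm, ← Real.exp_add]
    have e : x * uu x (1 - s) F (√(1 - s) • z) + -x * uu x (1 - s) F (√(1 - s) • z) = 0 := by ring
    rw [e, Real.exp_zero, one_mul]
  simp_rw [this]
  simp

end gen

lemma fr_AA_le {n : ℕ} (k x t : ℝ) (z : Pair n → ℝ) : fr (AA (n := n) k x t z) ≤ (n : ℝ) ^ 2 := by
  unfold fr
  have h1 : ∀ i j : Fin n, AA (n := n) k x t z i j ^ 2 ≤ 1 := fun i j => by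
    have := abs_AA (k := k) (x := x) t z i j
    rw [← sq_abs]
    nlinarith [abs_nonneg (AA (n := n) k x t z i j)]
  calc ∑ i, ∑ j, AA (n := n) k x t z i j ^ 2 ≤ ∑ i : Fin n, ∑ j : Fin n, (1 : ℝ) :=
        Finset.sum_le_sum fun i _ => Finset.sum_le_sum fun j _ => h1 i j
    _ = (n : ℝ) ^ 2 := by simp [_root_.sq]

lemma sq_le {n : ℕ} (hn : 0 < n) (β x t : ℝ) (z : Pair n → ℝ) :
    sq x t (lz (β / √n) (SkS (n := n))) (Dz (β / √n)) z ≤ β ^ 2 * n / 2 := by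
  have hn' : (0 : ℝ) < n := Nat.cast_pos.2 hn
  have hk2 : (β / √n) ^ 2 = β ^ 2 / n := by rw [div_pow, Real.sq_sqrt hn'.le]
  have h1 : sq x t (lz (β / √n) (SkS (n := n))) (Dz (β / √n)) z =
      (β / √n) ^ 2 / 2 * (fr (AA (n := n) (β / √n) x t z) - n) := sq_sk (β / √n) x t z
  rw [h1, hk2]
  have h2 := fr_AA_le (n := n) (β / √n) x t z
  have h3 : 0 ≤ β ^ 2 / n / 2 := by positivity
  calc β ^ 2 / n / 2 * (fr (AA (n := n) (β / √n) x t z) - n)
      ≤ β ^ 2 / n / 2 * (n : ℝ) ^ 2 := mul_le_mul_of_nonneg_left (by linarith) h3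
    _ = β ^ 2 * n / 2 := by field_simp

lemma Rn_le {n : ℕ} (hn : 0 < n) (β : ℝ) {x s t : ℝ} (hx : 0 < x) (h0 : 1 - s ≤ t) (h1 : t ≤ 1) :
    Rn n β x s t ≤ β ^ 2 * n / 2 := by
  have h := c11_lz (β / √n) (SkS (n := n))
  have e1 : EG fun z : Pair n → ℝ => sq x t (lz (β / √n) (SkS (n := n))) (Dz (β / √n)) z :=
    (h.W' hx (√(1 - t))).eg_G2
  have h2 := Ein_mono h hx e1 (EG.const (β ^ 2 * n / 2)) (fun z => sq_le hn β x t z) s t
  rw [Ein_const h hx h0 h1] at h2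
  exact h2

/-- **The slope is at most `β² n s / 4`.** -/
lemma Gn_le {n : ℕ} (hn : 0 < n) (β : ℝ) {x s : ℝ} (hx : 0 < x) (hs : 0 ≤ s) :
    Gn n β x s ≤ β ^ 2 * n * s / 4 := by
  unfold Gn
  have h := c11_lz (β / √n) (SkS (n := n))
  have h1 : ∫ t in (1 - s)..1, Rn n β x s t ≤ ∫ _ in (1 - s)..1, β ^ 2 * n / 2 :=
    intervalIntegral.integral_mono_on (by linarith)
      (Qin_int (D := Dz (β / √n)) h hx le_rfl (by linarith) le_rfl)
      intervalIntegrable_const fun t ht => Rn_le hn β hx ht.1 ht.2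
  rw [intervalIntegral.integral_const, smul_eq_mul] at h1
  linarith

/-! ### the pigeonhole -/

/-- geometric growth against an a priori bound -/
lemma pigeon (g : ℕ → ℝ) {q : ℝ} (hq : 0 ≤ q) {N : ℕ} (h : g N < q ^ N * g 0) :
    ∃ i < N, g (i + 1) ≤ q * g i := by
  by_contra hcon
  push Not at hcon
  have : ∀ i ≤ N, q ^ i * g 0 ≤ g i := by
    intro i
    induction i with
    | zero => intro _; simp
    | succ i ih =>
      intro hi
      have h1 := ih (by omega)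
      have h2 := hcon i (by omega)
      have h3 := mul_le_mul_of_nonneg_left h1 hq
      rw [pow_succ']
      linarith
  have := this N le_rfl
  linarith

/-- the pigeonhole on a geometric grid -/
theorem regular_gen {G : ℝ → ℝ} {a b lam q : ℝ} (ha : 0 < a) (hl0 : 0 < lam) (hl1 : lam < 1)
    (hG : ∀ x y, a ≤ x → x ≤ y → y ≤ b → G x ≤ G y) (hq : 0 ≤ q) {N : ℕ}
    (hb : a * ((1 + lam) / (1 - lam)) ^ N ≤ b) (hM : G b < q ^ N * G a) :
    ∃ x, a ≤ (1 - lam) * x ∧ (1 + lam) * x ≤ b ∧ G ((1 + lam) * x) ≤ q * G ((1 - lam) * x) := by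
  have h1l : 0 < 1 - lam := by linarith
  have hρ : 1 ≤ (1 + lam) / (1 - lam) := by
    rw [le_div_iff₀ h1l]; linarith
  have hρN : a ≤ a * ((1 + lam) / (1 - lam)) ^ N :=
    le_mul_of_one_le_right ha.le (one_le_pow₀ hρ)
  obtain ⟨i, hi, h⟩ := pigeon (fun i => G (a * ((1 + lam) / (1 - lam)) ^ i)) hq (N := N) (by
    refine lt_of_le_of_lt (hG _ _ hρN hb le_rfl) ?_
    simpa using hM)
  refine ⟨a * ((1 + lam) / (1 - lam)) ^ i / (1 - lam), ?_, ?_, ?_⟩
  · rw [mul_div_cancel₀ _ h1l.ne']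
    exact le_mul_of_one_le_right ha.le (one_le_pow₀ hρ)
  · have e : (1 + lam) * (a * ((1 + lam) / (1 - lam)) ^ i / (1 - lam)) =
        a * ((1 + lam) / (1 - lam)) ^ (i + 1) := by
      rw [pow_succ]; field_simp
    rw [e]
    refine le_trans (mul_le_mul_of_nonneg_left (pow_le_pow_right₀ hρ hi) ha.le) hb
  · have e : (1 + lam) * (a * ((1 + lam) / (1 - lam)) ^ i / (1 - lam)) =
        a * ((1 + lam) / (1 - lam)) ^ (i + 1) := by
      rw [pow_succ]; field_simp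
    rw [e, mul_div_cancel₀ _ h1l.ne']
    exact h

/-- the numbers of the grid -/
lemma grid_num {lam m δ : ℝ} (hl0 : 0 < lam) (hl1 : lam ≤ 1 / 2) {N : ℕ} (hN : (N : ℝ) ≤ m / 8)
    (hm : lam * m ≤ δ) (hδ : δ ≤ 1) : ((1 + lam) / (1 - lam)) ^ N ≤ 1 + δ := by
  have h1l : 0 < 1 - lam := by linarith
  have hρ : (1 + lam) / (1 - lam) ≤ Real.exp (4 * lam) := by
    have : (1 + lam) / (1 - lam) ≤ 4 * lam + 1 := by
      rw [div_le_iff₀ h1l]; nlinarith
    exact this.trans (Real.add_one_le_exp _)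
  have h2 : ((1 + lam) / (1 - lam)) ^ N ≤ Real.exp (4 * lam * N) := by
    have h3 := pow_le_pow_left₀ (by positivity) hρ N
    rw [← Real.exp_nat_mul] at h3
    refine h3.trans (le_of_eq ?_)
    congr 1; ring
  have h4 : 4 * lam * N ≤ δ / 2 := by
    have h5 := mul_le_mul_of_nonneg_left hN hl0.le
    nlinarith
  have hN0 : (0 : ℝ) ≤ N := Nat.cast_nonneg N
  have h6 : 0 ≤ 4 * lam * N := by positivity
  have h7 : Real.exp (4 * lam * N) ≤ Real.exp (δ / 2) := Real.exp_le_exp.2 h4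
  have h8 : Real.exp (δ / 2) ≤ 1 + δ := by
    have h9 := Real.exp_bound' (x := δ / 2) (n := 1) (by linarith) (by linarith) (by norm_num)
    norm_num [Finset.sum_range_succ] at h9
    nlinarith
  exact (h2.trans h7).trans h8

lemma exp_half_le {u : ℝ} (h0 : 0 ≤ u) (h1 : u ≤ 1) : Real.exp (u / 2) ≤ 1 + u := by
  have h9 := Real.exp_bound' (x := u / 2) (n := 1) (by linarith) (by linarith) (by norm_num)
  norm_num [Finset.sum_range_succ] at h9
  nlinarith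

/-- a stretched exponential beats every power -/
lemma ev_exp {δ : ℝ} (hδ : 0 < δ) (M K : ℝ) :
    ∀ᶠ n : ℕ in atTop, M * (n : ℝ) ^ K < Real.exp ((n : ℝ) ^ δ / 32) := by
  have h1 := tendsto_rpow_mul_exp_neg_mul_atTop_nhds_zero (K / δ) (1 / 32) (by norm_num)
  have h2 : Tendsto (fun n : ℕ => (n : ℝ) ^ δ) atTop atTop :=
    (tendsto_rpow_atTop hδ).comp tendsto_natCast_atTop_atTop
  have h3 := h1.comp h2
  have h4 : (0 : ℝ) < 1 / (|M| + 1) := by positivity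
  filter_upwards [h3.eventually (gt_mem_nhds h4), eventually_ge_atTop 1] with n h5 h6
  have hn0 : (0 : ℝ) < n := by exact_mod_cast h6
  simp only [Function.comp] at h5
  rw [← Real.rpow_mul hn0.le, mul_div_cancel₀ _ hδ.ne', neg_mul, Real.exp_neg,
    ← div_eq_mul_inv, div_lt_div_iff₀ (Real.exp_pos _) (by positivity)] at h5
  have h7 : M * (n : ℝ) ^ K ≤ (n : ℝ) ^ K * (|M| + 1) := by
    have := Real.rpow_pos_of_pos hn0 K
    nlinarith [le_abs_self M]
  have e : 1 / 32 * (n : ℝ) ^ δ = (n : ℝ) ^ δ / 32 := by ring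
  rw [e] at h5
  linarith

/-- **The slope is regular at some point near every `xs`.** -/
theorem regular (β : ℝ) {c1 c5 c6 : ℝ} (K : ℝ) (h1 : 0 < c1) (h6 : 0 < c6) (h5 : c1 + c6 < c5) :
    ∀ᶠ n : ℕ in atTop, ∀ xs s : ℝ, 0 < xs → 0 ≤ s → s ≤ 1 → (n : ℝ) ^ (-K) ≤ Gn n β xs s →
      ∃ x, xs ≤ (1 - (n : ℝ) ^ (-c5)) * x ∧
        (1 + (n : ℝ) ^ (-c5)) * x ≤ (1 + (n : ℝ) ^ (-c1)) * xs ∧
        Gn n β ((1 + (n : ℝ) ^ (-c5)) * x) s ≤
          (1 + (n : ℝ) ^ (-c6)) * Gn n β ((1 - (n : ℝ) ^ (-c5)) * x) s := by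
  filter_upwards [ev_exp (δ := c5 - c1 - c6) (by linarith) (β ^ 2 / 4) (1 + K),
    ev_big (a := c5 - c1) (C := 16) (by linarith), ev_big (a := c5) (C := 2) (by linarith),
    eventually_ge_atTop 1] with n e1 e2 e3 hn xs s hxs hs hs1 hG
  have hn1 : (1 : ℝ) ≤ n := by exact_mod_cast hn
  have hn0 : (0 : ℝ) < n := by linarith
  have hl0 : 0 < (n : ℝ) ^ (-c5) := Real.rpow_pos_of_pos hn0 _
  have hl1 : (n : ℝ) ^ (-c5) ≤ 1 / 2 := by
    rw [Real.rpow_neg hn0.le, one_div]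
    exact inv_anti₀ (by norm_num) e3.le
  have hu0 : 0 < (n : ℝ) ^ (-c6) := Real.rpow_pos_of_pos hn0 _
  have hu1 : (n : ℝ) ^ (-c6) ≤ 1 := Real.rpow_le_one_of_one_le_of_nonpos hn1 (by linarith)
  have hd0 : 0 < (n : ℝ) ^ (-c1) := Real.rpow_pos_of_pos hn0 _
  have hd1 : (n : ℝ) ^ (-c1) ≤ 1 := Real.rpow_le_one_of_one_le_of_nonpos hn1 (by linarith)
  obtain ⟨N, hN⟩ : ∃ N : ℕ, N = ⌊(n : ℝ) ^ (c5 - c1) / 8⌋₊ := ⟨_, rfl⟩
  have hm0 : 0 < (n : ℝ) ^ (c5 - c1) := Real.rpow_pos_of_pos hn0 _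
  have hN1 : (N : ℝ) ≤ (n : ℝ) ^ (c5 - c1) / 8 := by
    rw [hN]; exact Nat.floor_le (by positivity)
  have hN2 : (n : ℝ) ^ (c5 - c1) / 16 ≤ N := by
    have := Nat.lt_floor_add_one ((n : ℝ) ^ (c5 - c1) / 8)
    rw [← hN] at this
    linarith
  have hgrid := grid_num (δ := (n : ℝ) ^ (-c1)) hl0 hl1 hN1 (le_of_eq (by
    rw [← Real.rpow_add hn0]; congr 1; ring)) hd1
  have hq : Real.exp ((n : ℝ) ^ (c5 - c1 - c6) / 32) ≤ (1 + (n : ℝ) ^ (-c6)) ^ N := by
    have k1 := pow_le_pow_left₀ (Real.exp_pos _).le (exp_half_le hu0.le hu1) N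
    rw [← Real.exp_nat_mul] at k1
    refine le_trans (Real.exp_le_exp.2 ?_) k1
    have e : (n : ℝ) ^ (c5 - c1 - c6) = (n : ℝ) ^ (c5 - c1) * (n : ℝ) ^ (-c6) := by
      rw [← Real.rpow_add hn0]; congr 1
    rw [e]
    nlinarith [mul_le_mul_of_nonneg_right hN2 hu0.le]
  refine regular_gen (G := fun y => Gn n β y s) (N := N) hxs hl0 (by linarith)
    (fun y z b1 b2 _ => Gn_mono n β (hxs.trans_le b1) b2 hs hs1) (by positivity) ?_ ?_
  · rw [mul_comm]
    exact mul_le_mul_of_nonneg_right hgrid hxs.le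
  · have k1 : Gn n β ((1 + (n : ℝ) ^ (-c1)) * xs) s ≤ β ^ 2 / 4 * n := by
      refine (Gn_le hn β (by positivity) hs).trans ?_
      have : β ^ 2 * n * s ≤ β ^ 2 * n * 1 := mul_le_mul_of_nonneg_left hs1 (by positivity)
      linarith
    have hK : 0 < (n : ℝ) ^ (-K) := Real.rpow_pos_of_pos hn0 _
    have k2 : β ^ 2 / 4 * (n : ℝ) < Real.exp ((n : ℝ) ^ (c5 - c1 - c6) / 32) * (n : ℝ) ^ (-K) := by
      have k3 := mul_lt_mul_of_pos_right e1 hK
      have e : β ^ 2 / 4 * (n : ℝ) ^ (1 + K) * (n : ℝ) ^ (-K) = β ^ 2 / 4 * (n : ℝ) := by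
        rw [mul_assoc, ← Real.rpow_add hn0]
        norm_num
      rwa [e] at k3
    refine (k1.trans_lt k2).trans_le ?_
    exact mul_le_mul hq hG hK.le (by positivity)

end Vale.Agent.P146.H432
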