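import Vale.Agent.P146.H432.XStart
import Vale.Agent.P146.H767.ConcSk

/-!
# P146: the crossing point along a family of windows

The length of the window may depend on the exponent, `s = S(x)`, `S` nondecreasing.  At the first
point where `D(x, S x) ≥ c S(x) x³` one has equality, and the slope in the exponent, at the fixed
window `S x`, is at least `3 c S(x) x²`.
-/

open MeasureTheory ProbabilityTheory Filter Topology

namespace Vale.Agent.P146.H432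

open Vale.Agent.P157.Lv Vale.Agent.P146.H425 Vale.Agent.P146.H332 Vale.Agent.P146.H325
open Vale.Agent.P146.R1 Vale.Agent.P146.H767 Vale.Agent.P146.H522
open Vale.Agent.P146.H946 (Dz Hz)

set_option linter.unusedSectionVars false

/-- a function above its tangents is continuous -/
theorem cont_of_tan {D G : ℝ → ℝ} {x1 X : ℝ} (hX : x1 ≤ X)
    (tan : ∀ x y, x1 ≤ x → x ≤ X → x1 ≤ y → y ≤ X → D x + (y - x) * G x ≤ D y) :
    ContinuousOn D (Set.Icc x1 X) := by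
  have gm : ∀ x y, x1 ≤ x → x < y → y ≤ X → G x ≤ G y := by
    intro x y h1 h2 h3
    have a1 := tan x y h1 (h2.le.trans h3) (h1.trans h2.le) h3
    have a2 := tan y x (h1.trans h2.le) h3 h1 (h2.le.trans h3)
    have a3 : (y - x) * G x ≤ (y - x) * G y := by linarith
    exact le_of_mul_le_mul_left a3 (by linarith)
  obtain ⟨M, hM⟩ : ∃ M : ℝ, M = max |G x1| |G X| := ⟨_, rfl⟩
  have hM0 : 0 ≤ M := by rw [hM]; exact (abs_nonneg _).trans (le_max_left _ _)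
  have gb : ∀ x, x1 ≤ x → x ≤ X → |G x| ≤ M := by
    intro x h1 h2
    have l : G x1 ≤ G x := by
      rcases h1.eq_or_lt with rfl | h
      · exact le_rfl
      · exact gm _ _ le_rfl h h2
    have u : G x ≤ G X := by
      rcases h2.eq_or_lt with rfl | h
      · exact le_rfl
      · exact gm _ _ h1 h le_rfl
    rw [abs_le, hM]
    exact ⟨by
      have := (neg_abs_le (G x1))
      have := le_max_left |G x1| |G X|
      linarith, by
      have := le_abs_self (G X)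
      have := le_max_right |G x1| |G X|
      linarith⟩
  have one : ∀ x y, x1 ≤ x → x ≤ X → x1 ≤ y → y ≤ X → D x - D y ≤ M * |x - y| := by
    intro x y h1 h2 h3 h4
    have a1 := tan x y h1 h2 h3 h4
    have a2 : (x - y) * G x ≤ |x - y| * M := by
      refine (le_abs_self _).trans ?_
      rw [abs_mul]
      exact mul_le_mul_of_nonneg_left (gb x h1 h2) (abs_nonneg _)
    nlinarith
  have : LipschitzOnWith (Real.toNNReal M) D (Set.Icc x1 X) := by
    refine LipschitzOnWith.of_dist_le_mul fun x hx y hy => ?_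
    rw [Real.dist_eq, Real.dist_eq, Real.coe_toNNReal _ hM0, abs_le]
    have a1 := one x y hx.1 hx.2 hy.1 hy.2
    have a2 := one y x hy.1 hy.2 hx.1 hx.2
    rw [abs_sub_comm y x] at a2
    exact ⟨by linarith, a1⟩
  exact this.continuousOn

/-- **The first crossing along a nondecreasing family of windows.** -/
theorem cross_curve {D G : ℝ → ℝ → ℝ} {S : ℝ → ℝ} {x1 X c : ℝ} (hX : x1 ≤ X)
    (tan : ∀ z, x1 ≤ z → z ≤ X → ∀ x y, x1 ≤ x → x ≤ X → x1 ≤ y → y ≤ X →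
      D x (S z) + (y - x) * G x (S z) ≤ D y (S z))
    (hS0 : ∀ x, x1 ≤ x → x ≤ X → 0 < S x)
    (conc : ∀ x y z, x1 ≤ x → x ≤ X → x1 ≤ y → y ≤ z → z ≤ X →
      S y * D x (S z) ≤ S z * D x (S y))
    (l1 : D x1 (S x1) < c * S x1 * x1 ^ 3) (lX : c * S X * X ^ 3 ≤ D X (S X)) :
    ∃ x, x1 < x ∧ x ≤ X ∧ D x (S x) = c * S x * x ^ 3 ∧ 3 * c * S x * x ^ 2 ≤ G x (S x) ∧
      ∀ y, x1 ≤ y → y < x → D y (S y) < c * S y * y ^ 3 ∧ D y (S x) < c * S x * y ^ 3 := by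
  set A : Set ℝ := {x | x ∈ Set.Icc x1 X ∧ c * S x * x ^ 3 ≤ D x (S x)} with hA
  have hne : A.Nonempty := ⟨X, ⟨hX, le_rfl⟩, lX⟩
  have hb : BddBelow A := ⟨x1, fun y hy => hy.1.1⟩
  obtain ⟨x, hx⟩ : ∃ x, x = sInf A := ⟨_, rfl⟩
  have hx1 : x1 ≤ x := by rw [hx]; exact le_csInf hne fun y hy => hy.1.1
  have hxX : x ≤ X := by rw [hx]; exact csInf_le hb ⟨⟨hX, le_rfl⟩, lX⟩
  have hSx := hS0 x hx1 hxX
  have hlow : ∀ y, x1 ≤ y → y < x → D y (S y) < c * S y * y ^ 3 := by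
    intro y h1 h2
    by_contra hcon
    push Not at hcon
    have := csInf_le hb (show y ∈ A from ⟨⟨h1, h2.le.trans hxX⟩, hcon⟩)
    linarith
  have hlow2 : ∀ y, x1 ≤ y → y < x → D y (S x) < c * S x * y ^ 3 := by
    intro y h1 h2
    have a1 := hlow y h1 h2
    have a2 := conc y y x h1 (h2.le.trans hxX) h1 h2.le hxX
    have a3 := hS0 y h1 (h2.le.trans hxX)
    have a4 : S x * D y (S y) < S x * (c * S y * y ^ 3) := mul_lt_mul_of_pos_left a1 hSx
    have a5 : S y * D y (S x) < S y * (c * S x * y ^ 3) := by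
      refine (a2.trans_lt a4).trans_le (le_of_eq ?_)
      ring
    exact lt_of_mul_lt_mul_left a5 a3.le
  have hhigh : ∀ y ∈ A, c * S x * y ^ 3 ≤ D y (S x) := by
    intro y hy
    have hxy : x ≤ y := by rw [hx]; exact csInf_le hb hy
    have a2 := conc y x y hy.1.1 hy.1.2 hx1 hxy hy.1.2
    have a3 := hS0 y hy.1.1 hy.1.2
    have a4 : S x * (c * S y * y ^ 3) ≤ S x * D y (S y) := mul_le_mul_of_nonneg_left hy.2 hSx.le
    have a5 : S y * (c * S x * y ^ 3) ≤ S y * D y (S x) := by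
      refine (le_of_eq ?_).trans (a4.trans a2)
      ring
    exact le_of_mul_le_mul_left a5 a3
  have hcD := cont_of_tan (D := fun y => D y (S x)) (G := fun y => G y (S x)) hX
    (fun a b h1 h2 h3 h4 => tan x hx1 hxX a b h1 h2 h3 h4)
  have hcf : ContinuousOn (fun y => D y (S x) - c * S x * y ^ 3) (Set.Icc x1 X) :=
    hcD.sub (by fun_prop)
  -- the value from above
  have hge : 0 ≤ D x (S x) - c * S x * x ^ 3 := by
    have hcl : IsClosed (Set.Icc x1 X ∩ (fun y => D y (S x) - c * S x * y ^ 3) ⁻¹' Set.Ici 0) :=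
      hcf.preimage_isClosed_of_isClosed isClosed_Icc isClosed_Ici
    have hsub : A ⊆ Set.Icc x1 X ∩ (fun y => D y (S x) - c * S x * y ^ 3) ⁻¹' Set.Ici 0 :=
      fun y hy => ⟨hy.1, by
        simp only [Set.mem_preimage, Set.mem_Ici]
        have := hhigh y hy
        linarith⟩
    have hm : x ∈ closure A := by rw [hx]; exact csInf_mem_closure hne hb
    exact (closure_minimal hsub hcl hm).2
  have hlt : x1 < x := by
    rcases hx1.eq_or_lt with h | h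
    · rw [← h] at hge
      linarith
    · exact h
  have hfx : D x (S x) = c * S x * x ^ 3 := by
    have hiv := intermediate_value_Icc (f := fun y => D y (S x) - c * S x * y ^ 3) hlt.le
      (hcf.mono (Set.Icc_subset_Icc le_rfl hxX))
    have a1 : D x1 (S x) - c * S x * x1 ^ 3 < 0 := by
      have := hlow2 x1 le_rfl hlt
      linarith
    obtain ⟨z, hz, hz0⟩ := hiv ⟨a1.le, hge⟩
    simp only at hz0
    rcases hz.2.eq_or_lt with h | h
    · rw [← h] at hz0 ⊢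
      have := hlow2 x1 le_rfl hlt
      by_cases hzx : z = x
      · rw [hzx] at hz0 ⊢; linarith
      · exact absurd h hzx
    · have := hlow2 z hz.1 h
      linarith
  refine ⟨x, hlt, hxX, hfx, ?_, fun y h1 h2 => ⟨hlow y h1 h2, hlow2 y h1 h2⟩⟩
  have hev : ∀ᶠ y in 𝓝[<] x, c * S x * (x ^ 2 + x * y + y ^ 2) ≤ G x (S x) := by
    filter_upwards [Ioo_mem_nhdsLT hlt] with y hy
    have a1 := tan x hx1 hxX x y hx1 hxX hy.1.le (hy.2.le.trans hxX)
    have a2 := hlow2 y hy.1.le hy.2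
    have a3 : (x - y) * (c * S x * (x ^ 2 + x * y + y ^ 2)) ≤ (x - y) * G x (S x) := by
      have e : (x - y) * (c * S x * (x ^ 2 + x * y + y ^ 2)) =
        c * S x * x ^ 3 - c * S x * y ^ 3 := by ring
      rw [e]
      nlinarith
    exact le_of_mul_le_mul_left a3 (by have := hy.2; linarith)
  have hlim : Tendsto (fun y => c * S x * (x ^ 2 + x * y + y ^ 2)) (𝓝[<] x)
      (𝓝 (c * S x * (x ^ 2 + x * x + x ^ 2))) := by
    have : Continuous fun y : ℝ => c * S x * (x ^ 2 + x * y + y ^ 2) := by fun_prop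
    exact (this.tendsto x).mono_left nhdsWithin_le_nhds
  have := le_of_tendsto hlim hev
  linarith

/-! ### the free energy -/

/-- The mean squared base gradient is nonincreasing in the length of the window. -/
def AntiN (n : ℕ) (β : ℝ) : Prop := ∀ x, 0 < x → x ≤ 1 → ∀ s s', 0 ≤ s → s ≤ s' → s' ≤ 1 →
  Kn n β x s' ≤ Kn n β x s

theorem AntiN.conc {n : ℕ} {β : ℝ} (h : AntiN n β) : ConcN n β := by
  intro x hx hx1 s hs hs1
  exact ⟨DD_ge_of (c11_lz (β / √n) (SkS (n := n))) hx (fun a c ha hac hc => h x hx hx1 a c ha hac hc)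
    hs hs1, DD_one_of (c11_lz (β / √n) (SkS (n := n))) hx
    (fun a c ha hac hc => h x hx hx1 a c ha hac hc) hs hs1⟩

theorem AntiN.dd {n : ℕ} {β : ℝ} (h : AntiN n β) {x s s' : ℝ} (hx : 0 < x) (hx1 : x ≤ 1)
    (hs : 0 ≤ s) (hss : s ≤ s') (hs1 : s' ≤ 1) : s * Dn n β x s' ≤ s' * Dn n β x s :=
  DD_conc_of (c11_lz (β / √n) (SkS (n := n))) hx
    (fun a c ha hac hc => h x hx hx1 a c ha hac hc) hs hss hs1

/-- `AntiN` from the inequality `TT`. -/
theorem AntiN.of_TT {n : ℕ} {β : ℝ} (hT : ∀ x, 0 < x → x ≤ 1 → ∀ s, 0 ≤ s → s < 1 →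
    TT x s (lz (β / √n) (SkS (n := n))) (Dz (β / √n)) (Hz (β / √n))) : AntiN n β :=
  fun x hx hx1 s s' hs hss hs1 => Q0_anti_sk (β / √n) hx (hT x hx hx1) s s' hs hss hs1

/-- the tangent inequality for the free energy -/
theorem Dn_tan (n : ℕ) (β : ℝ) {x y s : ℝ} (hx : 0 < x) (hy : 0 < y) (hs : 0 ≤ s) (hs1 : s ≤ 1) :
    Dn n β x s + (y - x) * (1 / 2 * ∫ t in (1 - s)..1, Rn n β x s t) ≤ Dn n β y s := by
  have := DD_tan (D := Dz (β / √n)) (c11_lz (β / √n) (SkS (n := n)))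
    (cv_lz (β / √n) (SkS (n := n))) hx hy hs hs1
  unfold Dn Rn
  linarith

/-- **The crossing point along a nondecreasing family of windows, free energy.** -/
theorem star_curve_n {n : ℕ} {β : ℝ} (h : AntiN n β) {S : ℝ → ℝ} {x1 X c : ℝ} (h1 : 0 < x1)
    (hX : x1 ≤ X) (hX1 : X ≤ 1) (hS0 : ∀ x, x1 ≤ x → x ≤ X → 0 < S x)
    (hS1 : ∀ x, x1 ≤ x → x ≤ X → S x ≤ 1) (hS : ∀ x y, x1 ≤ x → x ≤ y → y ≤ X → S x ≤ S y)
    (lX : c * S X * X ^ 3 ≤ Dn n β X (S X)) (hc : 3 / 2 < c * S x1 * x1 ^ 4) :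
    1 / (18 * x1) - 1 ≤ √(Var[freeEnergy n β; disorder n]) ∨
    ∃ x, x1 < x ∧ x ≤ X ∧ StarAt n β (S x) c x ∧
      ∀ y, x1 ≤ y → y < x → Dn n β y (S y) < c * S y * y ^ 3 ∧
        Dn n β y (S x) < c * S x * y ^ 3 := by
  have hs1 := hS0 x1 le_rfl hX
  rcases le_or_gt (c * S x1 * x1 ^ 3) (Dn n β x1 (S x1)) with hD | hD
  · left
    refine H641.sd_of_tail n β h1 (hc.trans_le ?_)
    refine le_trans ?_ (log_ge_Dn n β h1 hs1.le (hS1 x1 le_rfl hX))
    have := mul_le_mul_of_nonneg_left hD h1.le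
    refine le_trans (le_of_eq ?_) this
    ring
  · right
    obtain ⟨x, a1, a2, a3, a4, a5⟩ := cross_curve (D := Dn n β)
      (G := fun x s => 1 / 2 * ∫ t in (1 - s)..1, Rn n β x s t) (S := S) (c := c) hX
      (fun z b1 b2 x y b3 _ b5 _ => Dn_tan n β (h1.trans_le b3) (h1.trans_le b5)
        (hS0 z b1 b2).le (hS1 z b1 b2)) hS0
      (fun x y z b1 b2 b3 b4 b5 => h.dd (h1.trans_le b1) (b2.trans hX1)
        (hS0 y b3 (b4.trans b5)).le (hS y z b3 b4 b5) (hS1 z (b3.trans b4) b5)) hD lX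
    refine ⟨x, a1, a2, ⟨a3, a4, ?_⟩, a5⟩
    have hx : 0 < x := h1.trans a1
    have hsx := hS0 x a1.le a2
    have h3 := (h.conc x hx (a2.trans hX1) (S x) hsx.le (hS1 x a1.le a2)).1
    rw [a3] at h3
    have e1 : c * S x * x ^ 3 = x / 2 * S x * (2 * c * x ^ 2) := by ring
    have e2 : x / 2 * (S x * Kn n β x (S x)) = x / 2 * S x * Kn n β x (S x) := by ring
    rw [e1, e2] at h3
    exact le_of_mul_le_mul_left h3 (by positivity)

/-- **The crossing point along a nondecreasing family of windows**, eventually in `n`. -/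
theorem star_curve {β : ℝ} (hβ : 1 < β) {a d : ℝ} (ha0 : 0 < a) (ha : a < 1 / 15) (hd : 2 * a < d) :
    ∀ᶠ n : ℕ in atTop, AntiN n β → ∀ (S : ℝ → ℝ) (x1 : ℝ), 0 < x1 → x1 ≤ (n : ℝ) ^ (-a) →
      (∀ x, x1 ≤ x → x ≤ (n : ℝ) ^ (-a) → 0 < S x) →
      (∀ x, x1 ≤ x → x ≤ (n : ℝ) ^ (-a) → S x ≤ 1) →
      (∀ x y, x1 ≤ x → x ≤ y → y ≤ (n : ℝ) ^ (-a) → S x ≤ S y) →
      3 / 2 < (n : ℝ) ^ (1 - d) * S x1 * x1 ^ 4 →
      1 / (18 * x1) - 1 ≤ √(Var[freeEnergy n β; disorder n]) ∨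
      ∃ x, x1 < x ∧ x ≤ (n : ℝ) ^ (-a) ∧ StarAt n β (S x) ((n : ℝ) ^ (1 - d)) x ∧
        ∀ y, x1 ≤ y → y < x → Dn n β y (S y) < (n : ℝ) ^ (1 - d) * S y * y ^ 3 ∧
          Dn n β y (S x) < (n : ℝ) ^ (1 - d) * S x * y ^ 3 := by
  filter_upwards [start hβ ha0 ha hd, ev_small (a := a) (δ := 1) ha0 one_pos]
    with n h1 h2 hA S x1 hx1 hX b1 b2 b3 hc
  exact star_curve_n hA hx1 hX h2.le b1 b2 b3
    (h1 hA.conc _ (b1 _ hX le_rfl).le (b2 _ hX le_rfl)) hc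

/-- **The crossing point, windows `n^(-w) x²`.** -/
theorem star_sq {β : ℝ} (hβ : 1 < β) {a d e w : ℝ} (ha0 : 0 < a) (ha : a < 1 / 15)
    (hd : 2 * a < d) (he : e ≤ 1 / 6 - a) (hw : 0 ≤ w) (hdw : d + w < 6 * e) :
    ∀ᶠ n : ℕ in atTop, AntiN n β →
      (n : ℝ) ^ (1 / 6 - e) / 36 ≤ √(Var[freeEnergy n β; disorder n]) ∨
      ∃ x, (n : ℝ) ^ (-(1 / 6) + e) < x ∧ x ≤ (n : ℝ) ^ (-a) ∧
        StarAt n β ((n : ℝ) ^ (-w) * x ^ 2) ((n : ℝ) ^ (1 - d)) x ∧
        ∀ y, (n : ℝ) ^ (-(1 / 6) + e) ≤ y → y < x → Dn n β y ((n : ℝ) ^ (-w) * x ^ 2) <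
          (n : ℝ) ^ (1 - d) * ((n : ℝ) ^ (-w) * x ^ 2) * y ^ 3 := by
  filter_upwards [star_curve hβ ha0 ha hd, ev_big (a := 6 * e - d - w) (C := 3 / 2) (by linarith),
    ev_big (a := 1 / 6 - e) (C := 36) (by linarith), eventually_ge_atTop 1] with n h1 h2 h3 h4 hA
  have hn1 : (1 : ℝ) ≤ n := by exact_mod_cast h4
  have hn0 : (0 : ℝ) < n := by linarith
  have hx1 : 0 < (n : ℝ) ^ (-(1 / 6) + e) := Real.rpow_pos_of_pos hn0 _
  have hX1 : (n : ℝ) ^ (-a) ≤ 1 := Real.rpow_le_one_of_one_le_of_nonpos hn1 (by linarith)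
  have hw1 : (n : ℝ) ^ (-w) ≤ 1 := Real.rpow_le_one_of_one_le_of_nonpos hn1 (by linarith)
  have hw0 : 0 < (n : ℝ) ^ (-w) := Real.rpow_pos_of_pos hn0 _
  have k1 := h1 hA (fun x => (n : ℝ) ^ (-w) * x ^ 2) ((n : ℝ) ^ (-(1 / 6) + e)) hx1
    (Real.rpow_le_rpow_of_exponent_le hn1 (by linarith))
    (fun x b1 _ => by have := hx1.trans_le b1; positivity)
    (fun x b1 b2 => by
      have c1 : x ≤ 1 := b2.trans hX1
      have c2 := hx1.trans_le b1
      have c3 : x ^ 2 ≤ 1 := pow_le_one₀ c2.le c1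
      calc (n : ℝ) ^ (-w) * x ^ 2 ≤ 1 * 1 := mul_le_mul hw1 c3 (by positivity) (by norm_num)
        _ = 1 := by norm_num)
    (fun x y b1 b2 _ => by
      have c2 := hx1.trans_le b1
      gcongr) (by
      refine h2.trans_le (le_of_eq ?_)
      rw [← Real.rpow_natCast, ← Real.rpow_natCast, ← Real.rpow_mul hn0.le,
        ← Real.rpow_mul hn0.le, ← Real.rpow_add hn0, ← Real.rpow_add hn0, ← Real.rpow_add hn0]
      congr 1
      push_cast
      ring)
  rcases k1 with h | ⟨x, c1, c2, c3, c4⟩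
  · left
    refine le_trans ?_ h
    have e1 : 1 / (18 * (n : ℝ) ^ (-(1 / 6) + e)) = (n : ℝ) ^ (1 / 6 - e) / 18 := by
      have e2 : (-(1 / 6) + e : ℝ) = -(1 / 6 - e) := by ring
      rw [e2, Real.rpow_neg hn0.le]
      field_simp
    rw [e1]
    linarith
  · exact Or.inr ⟨x, c1, c2, c3, fun y d1 d2 => (c4 y d1 d2).2⟩

/-- **The interface, windows `n^(-w) x²`.** -/
theorem third_of_rows_sq {β : ℝ} (hβ : 1 < β) (hA : ∀ᶠ n : ℕ in atTop, AntiN n β)
    (hrows : ∀ e : ℝ, 0 < e → ∃ a d w : ℝ, 0 < a ∧ a < 1 / 15 ∧ 2 * a < d ∧ 0 ≤ w ∧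
      d + w < 6 * e ∧ ∀ᶠ n : ℕ in atTop, ∀ x : ℝ, (n : ℝ) ^ (-(1 / 6) + e) ≤ x →
        x ≤ (n : ℝ) ^ (-a) → √(Var[freeEnergy n β; disorder n]) ≤ (n : ℝ) ^ (1 / 6 - e) / 36 →
        ¬ StarAt n β ((n : ℝ) ^ (-w) * x ^ 2) ((n : ℝ) ^ (1 - d)) x) :
    ∀ γ : ℝ, γ < 1 / 3 → ∀ᶠ n : ℕ in atTop, (n : ℝ) ^ γ ≤ Var[freeEnergy n β; disorder n] := by
  intro γ hγ
  obtain ⟨e, he⟩ : ∃ e : ℝ, e = min ((1 / 3 - γ) / 4) (1 / 12) := ⟨_, rfl⟩
  have he1 : e ≤ (1 / 3 - γ) / 4 := by rw [he]; exact min_le_left _ _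
  have he2 : e ≤ 1 / 12 := by rw [he]; exact min_le_right _ _
  have he0 : 0 < e := by rw [he]; exact lt_min (by linarith) (by norm_num)
  obtain ⟨a, d, w, h1, h2, h3, h4, h5, h6⟩ := hrows e he0
  filter_upwards [star_sq hβ h1 h2 h3 (by linarith) h4 h5, hA, h6,
    ev_big (a := 1 / 3 - 2 * e - γ) (C := 36 ^ 2) (by linarith), eventually_ge_atTop 1]
    with n k1 k2 k3 k4 k5
  have hn0 : (0 : ℝ) < n := by exact_mod_cast k5
  have key : (n : ℝ) ^ (1 / 6 - e) / 36 ≤ √(Var[freeEnergy n β; disorder n]) := by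
    rcases k1 k2 with h | ⟨x, b1, b2, b3, -⟩
    · exact h
    · by_contra hcon
      push Not at hcon
      exact k3 x b1.le b2 hcon.le b3
  have h7 : ((n : ℝ) ^ (1 / 6 - e) / 36) ^ 2 ≤ Var[freeEnergy n β; disorder n] := by
    have := pow_le_pow_left₀ (by positivity) key 2
    rwa [Real.sq_sqrt (variance_nonneg _ _)] at this
  refine le_trans ?_ h7
  rw [div_pow, le_div_iff₀ (by norm_num), ← Real.rpow_natCast ((n : ℝ) ^ (1 / 6 - e)),
    ← Real.rpow_mul hn0.le]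
  have e1 : ((1 / 6 - e) * ((2 : ℕ) : ℝ) : ℝ) = γ + (1 / 3 - 2 * e - γ) := by push_cast; ring
  rw [e1, Real.rpow_add hn0]
  exact mul_le_mul_of_nonneg_left k4.le (by positivity)

end Vale.Agent.P146.H432
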