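import Vale.Agent.P146.H432.XPoint
import Vale.Agent.P146.H95.Top

/-!
# P146: the point, without contradiction hypothesis

The upper bound `log E e^{x(F-EF)} ≤ n^d` at `x = n^(-1/6)/2` holds for all `β`.  If the rows exclude
the point `PtN` then `log E e^{x(F-EF)} ≥ n^(1-e) x^6` for all `x` between `n^(-1/6+e)` and a
constant, and `Var F ≥ n^(1/3-)`.
-/

open MeasureTheory ProbabilityTheory Filter Topology

namespace Vale.Agent.P146.H432

open Vale.Agent.P157.Lv Vale.Agent.P146.H425 Vale.Agent.P146.H332 Vale.Agent.P146.H325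
open Vale.Agent.P146.R1 Vale.Agent.P146.H767 Vale.Agent.P146.H522
open Vale.Agent.P146.H946 (Dz Hz)

set_option linter.unusedSectionVars false

/-- **The facts at the crossing point**, without contradiction hypothesis. -/
structure PtN (n : ℕ) (β s c x : ℝ) : Prop where
  x0 : 0 < x
  le1 : x ≤ 1
  s0 : 0 < s
  s1 : s ≤ 1
  c0 : 0 < c
  /-- the value: `c s x³` -/
  val : Dn n β x s = c * s * x ^ 3
  /-- the slope is at least `3 c s x²` -/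
  slope : 3 * c * s * x ^ 2 ≤ Gn n β x s
  /-- the squared base gradient is at most `2 c x²` -/
  base : Kn n β x s ≤ 2 * c * x ^ 2
  /-- comparison to the left -/
  left : ∀ y, x / 2 ≤ y → y < x → Dn n β y s < c * s * y ^ 3

variable {n : ℕ} {β x1 s c x : ℝ}

theorem Pt.toN (h : Pt n β x1 s c x) : PtN n β s c x :=
  ⟨h.x0, h.le1, h.s0, h.s1, h.c0, h.val, h.slope, h.base, h.left⟩

/-- the secant to the left -/
theorem PtN.sec (h : PtN n β s c x) {η : ℝ} (h0 : 0 < η) (h1 : η ≤ 1 / 2) :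
    (3 - 3 * η) * η * (c * s * x ^ 3) ≤ Dn n β x s - Dn n β ((1 - η) * x) s := by
  have hx := h.x0
  have h2 := h.left ((1 - η) * x) (by nlinarith) (by nlinarith)
  have hc : 0 < c * s * x ^ 3 := by have := h.c0; have := h.s0; positivity
  rw [h.val]
  have e : c * s * ((1 - η) * x) ^ 3 = (1 - η) ^ 3 * (c * s * x ^ 3) := by ring
  rw [e] at h2
  have h3 : (3 - 3 * η) * η ≤ 1 - (1 - η) ^ 3 := by nlinarith [pow_pos h0 3]
  nlinarith [mul_le_mul_of_nonneg_right h3 hc.le]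

/-- **The comparison below with the longer window**: the lower side of the slope. -/
theorem PtN.sec_long (hA : AntiN n β) (h : PtN n β s c x) {η τ : ℝ} (h0 : 0 < η) (h1 : η ≤ 1 / 2)
    (hτ : 0 ≤ τ) (hsτ : s + τ ≤ 1) :
    ((3 - 3 * η) * η - τ / s) * (c * s * x ^ 3) ≤
      Dn n β x s - Dn n β ((1 - η) * x) (s + τ) := by
  have hx := h.x0
  have hy : 0 < (1 - η) * x := by nlinarith
  have h2 := h.sec h0 h1
  have h3 := hA.longer (y := (1 - η) * x) (s := s) (τ := τ) hy (by nlinarith [h.le1]) h.s0 hτ hsτ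
  have h4 : Dn n β ((1 - η) * x) s ≤ c * s * x ^ 3 := by
    rw [← h.val]
    exact Dn_mono n β hy (by nlinarith) h.s0.le h.s1
  have h5 : τ / s * Dn n β ((1 - η) * x) s ≤ τ / s * (c * s * x ^ 3) :=
    mul_le_mul_of_nonneg_left h4 (div_nonneg hτ h.s0.le)
  nlinarith

/-- to the right of the crossing point -/
theorem PtN.right (h : PtN n β s c x) {y : ℝ} (hy : x ≤ y) :
    Dn n β y s ≤ (y - 2 / 3 * x) * Gn n β y s ∧
      c * s * x ^ 3 + (y - x) * Gn n β x s ≤ Dn n β y s := by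
  have hx := h.x0
  have hy0 : 0 < y := hx.trans_le hy
  have h1 := Dn_tan' n β (x := y) (y := x) hy0 hx h.s0.le h.s1
  have h2 := Dn_tan' n β (x := x) (y := y) hx hy0 h.s0.le h.s1
  have h3 := Gn_mono n β hx hy h.s0.le h.s1
  rw [h.val] at h1 h2
  refine ⟨?_, h2⟩
  have h4 := h.slope.trans h3
  have h5 : c * s * x ^ 3 ≤ x / 3 * Gn n β y s := by
    have := mul_le_mul_of_nonneg_left h4 (by positivity : 0 ≤ x / 3)
    refine (le_of_eq ?_).trans this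
    ring
  nlinarith

/-- **The base moment, unconditional.** -/
theorem Lg_base {β : ℝ} (hβ : 0 < β) {d : ℝ} (hd : 0 < d) : ∀ᶠ n : ℕ in atTop,
    Lg n β ((n : ℝ) ^ (-(1 / 6) : ℝ) / 2) ≤ (n : ℝ) ^ d := by
  obtain ⟨D, hD, h⟩ := H95.fluct hβ (d / 2) (by positivity)
  filter_upwards [ev_big (a := d / 2) (C := D) (by positivity), eventually_ge_atTop 1]
    with n h1 h2
  have hn0 : (0 : ℝ) < n := by exact_mod_cast h2
  have h3 := (h n h2).mgf ((n : ℝ) ^ (-(1 / 6) : ℝ) / 2) (by linarith [le_refl (1 : ℝ)])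
  have hd' : disorder n = gI (Pair n) := rfl
  have hp : 0 < ∫ g, Real.exp ((n : ℝ) ^ (-(1 / 6) : ℝ) / 2 * (freeEnergy n β g -
      ∫ h, freeEnergy n β h ∂(disorder n))) ∂(disorder n) := by
    rw [hd', fE_lz]
    have hL := c11_lz (β / √n) (SkS (n := n))
    have : Integrable (fun g => Real.exp ((n : ℝ) ^ (-(1 / 6) : ℝ) / 2 *
        (lz (β / √n) (SkS (n := n)) g - ∫ h, lz (β / √n) (SkS (n := n)) h ∂(gI (Pair n)))))
        (gI (Pair n)) := by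
      have h5 := (hL.eg_exp ((n : ℝ) ^ (-(1 / 6) : ℝ) / 2)).integrable.const_mul
        (Real.exp (-((n : ℝ) ^ (-(1 / 6) : ℝ) / 2 *
          ∫ h, lz (β / √n) (SkS (n := n)) h ∂(gI (Pair n)))))
      refine h5.congr (Eventually.of_forall fun g => ?_)
      simp only
      rw [← Real.exp_add]
      congr 1
      ring
    exact integral_exp_pos this
  unfold Lg
  have h4 := Real.log_le_log hp h3
  rw [Real.log_exp] at h4
  refine h4.trans ?_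
  have e1 : (n : ℝ) ^ (1 / 3 + d / 2) * ((n : ℝ) ^ (-(1 / 6) : ℝ) / 2) ^ 2 =
      (n : ℝ) ^ (d / 2) / 4 := by
    rw [div_pow, ← Real.rpow_natCast ((n : ℝ) ^ (-(1 / 6) : ℝ)), ← Real.rpow_mul hn0.le]
    have e2 : (n : ℝ) ^ (1 / 3 + d / 2) * ((n : ℝ) ^ (-(1 / 6) * ((2 : ℕ) : ℝ)) / 2 ^ 2) =
      (n : ℝ) ^ (1 / 3 + d / 2) * (n : ℝ) ^ (-(1 / 6) * ((2 : ℕ) : ℝ)) / 4 := by ring
    rw [e2, ← Real.rpow_add hn0]
    congr 2
    push_cast
    ring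
  have e3 : D * (n : ℝ) ^ (1 / 3 + d / 2) * ((n : ℝ) ^ (-(1 / 6) : ℝ) / 2) ^ 2 =
      D * ((n : ℝ) ^ (d / 2) / 4) := by rw [mul_assoc, e1]
  rw [e3]
  have hq : 0 < (n : ℝ) ^ (d / 2) := Real.rpow_pos_of_pos hn0 _
  have e4 : (n : ℝ) ^ d = (n : ℝ) ^ (d / 2) * (n : ℝ) ^ (d / 2) := by
    rw [← Real.rpow_add hn0]; congr 1; ring
  rw [e4]
  nlinarith

/-- **The point, windows `n^(-w) x²`, no contradiction hypothesis.** -/
theorem point_N {β : ℝ} (hβ : 1 < β) {a d w : ℝ} (ha0 : 0 < a) (ha : a < 1 / 15)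
    (hd : 2 * a < d) (hw : 0 ≤ w) :
    ∀ᶠ n : ℕ in atTop, AntiN n β → ∀ x1, 0 < x1 → x1 ≤ (n : ℝ) ^ (-a) →
      Dn n β x1 ((n : ℝ) ^ (-w) * x1 ^ 2) <
        (n : ℝ) ^ (1 - d) * ((n : ℝ) ^ (-w) * x1 ^ 2) * x1 ^ 3 / 8 →
      ∃ x, x1 < x ∧ x ≤ (n : ℝ) ^ (-a) ∧
        PtN n β ((n : ℝ) ^ (-w) * x ^ 2) ((n : ℝ) ^ (1 - d)) x := by
  filter_upwards [start hβ ha0 ha hd, eventually_ge_atTop 1] with n h1 h4 hA x1 hx1 hx1X hlow
  have hn1 : (1 : ℝ) ≤ n := by exact_mod_cast h4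
  have hn0 : (0 : ℝ) < n := by linarith
  have hX1 : (n : ℝ) ^ (-a) ≤ 1 := Real.rpow_le_one_of_one_le_of_nonpos hn1 (by linarith)
  have hw1 : (n : ℝ) ^ (-w) ≤ 1 := Real.rpow_le_one_of_one_le_of_nonpos hn1 (by linarith)
  have hw0 : 0 < (n : ℝ) ^ (-w) := Real.rpow_pos_of_pos hn0 _
  have hc0 : 0 < (n : ℝ) ^ (1 - d) := Real.rpow_pos_of_pos hn0 _
  have hSpos : ∀ x, x1 ≤ x → 0 < (n : ℝ) ^ (-w) * x ^ 2 := fun x hx => by
    have := hx1.trans_le hx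
    positivity
  have hSle : ∀ x, x1 ≤ x → x ≤ (n : ℝ) ^ (-a) → (n : ℝ) ^ (-w) * x ^ 2 ≤ 1 := fun x b1 b2 => by
    have c1 : x ≤ 1 := b2.trans hX1
    have c2 := hx1.trans_le b1
    have c3 : x ^ 2 ≤ 1 := pow_le_one₀ c2.le c1
    calc (n : ℝ) ^ (-w) * x ^ 2 ≤ 1 * 1 := mul_le_mul hw1 c3 (by positivity) (by norm_num)
      _ = 1 := by norm_num
  have hpos : 0 < (n : ℝ) ^ (1 - d) * ((n : ℝ) ^ (-w) * x1 ^ 2) * x1 ^ 3 := by positivity
  obtain ⟨x, a1, a2, a3, a4, a5⟩ := cross_curve (D := Dn n β) (G := Gn n β)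
    (S := fun x => (n : ℝ) ^ (-w) * x ^ 2) (c := (n : ℝ) ^ (1 - d)) hx1X
    (fun z b1 b2 x y b3 _ b5 _ => Dn_tan' n β (hx1.trans_le b3) (hx1.trans_le b5)
      (hSpos z b1).le (hSle z b1 b2)) (fun x b1 _ => hSpos x b1)
    (fun x y z b1 b2 b3 b4 b5 => hA.dd (hx1.trans_le b1) (b2.trans hX1)
      (hSpos y b3).le (by have := hx1.trans_le b3; gcongr) (hSle z (b3.trans b4) b5))
    (hlow.trans (by linarith)) (h1 hA.conc _ (hSpos _ hx1X).le (hSle _ hx1X le_rfl))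
  have hx : 0 < x := hx1.trans a1
  have hs := hSpos x a1.le
  refine ⟨x, a1, a2, ?_⟩
  have hb := (hA.conc x hx (a2.trans hX1) _ hs.le (hSle x a1.le a2)).1
  refine ⟨hx, a2.trans hX1, hs, hSle x a1.le a2, hc0, a3, ?_, ?_, ?_⟩
  · refine le_trans (le_of_eq ?_) a4
    ring
  · rw [a3] at hb
    have e1 : (n : ℝ) ^ (1 - d) * ((n : ℝ) ^ (-w) * x ^ 2) * x ^ 3 =
      x / 2 * ((n : ℝ) ^ (-w) * x ^ 2) * (2 * (n : ℝ) ^ (1 - d) * x ^ 2) := by ring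
    have e2 : x / 2 * ((n : ℝ) ^ (-w) * x ^ 2 * Kn n β x ((n : ℝ) ^ (-w) * x ^ 2)) =
      x / 2 * ((n : ℝ) ^ (-w) * x ^ 2) * Kn n β x ((n : ℝ) ^ (-w) * x ^ 2) := by ring
    rw [e1, e2] at hb
    exact le_of_mul_le_mul_left hb (by positivity)
  · intro y b1 b2
    rcases le_or_gt x1 y with h | h
    · exact (a5 y h b2).2
    · have hy : 0 < y := by linarith
      have hy2 : x1 / 2 ≤ y := by linarith
      have hy3 : (x1 / 2) ^ 3 ≤ y ^ 3 := pow_le_pow_left₀ (by positivity) hy2 3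
      -- `D(y, s) ≤ D(x1, s) ≤ (s / S(x1)) D(x1, S(x1))`
      have k1 := Dn_mono n β hy h.le hs.le (hSle x a1.le a2)
      have hS1 := hSpos x1 le_rfl
      have k2 := hA.dd hx1 (hx1X.trans hX1) hS1.le
        (show (n : ℝ) ^ (-w) * x1 ^ 2 ≤ (n : ℝ) ^ (-w) * x ^ 2 by gcongr) (hSle x a1.le a2)
      have k3 := mul_lt_mul_of_pos_left hlow hs
      have k4 : (n : ℝ) ^ (-w) * x1 ^ 2 * Dn n β x1 ((n : ℝ) ^ (-w) * x ^ 2) <
          (n : ℝ) ^ (-w) * x1 ^ 2 *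
            ((n : ℝ) ^ (1 - d) * ((n : ℝ) ^ (-w) * x ^ 2) * (x1 / 2) ^ 3) := by
        refine (k2.trans_lt k3).trans_le (le_of_eq ?_)
        ring
      have k5 := lt_of_mul_lt_mul_left k4 hS1.le
      have k6 : (n : ℝ) ^ (1 - d) * ((n : ℝ) ^ (-w) * x ^ 2) * (x1 / 2) ^ 3 ≤
          (n : ℝ) ^ (1 - d) * ((n : ℝ) ^ (-w) * x ^ 2) * y ^ 3 := by gcongr
      linarith

/-- the lower bound of the exponential moment -/
def LoM (β : ℝ) : Prop := ∀ e : ℝ, 0 < e → ∃ δ : ℝ, 0 < δ ∧ ∀ᶠ n : ℕ in atTop, ∀ x : ℝ,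
  (n : ℝ) ^ (-(1 / 6) + e) ≤ x → x ≤ δ → (n : ℝ) ^ (1 - e) * x ^ 6 ≤ Lg n β x

/-- The impossibility of the point. -/
def NoPt (β : ℝ) : Prop := ∀ e : ℝ, 0 < e → e ≤ 1 / 12 → ∃ a d w : ℝ, 0 < a ∧ a < 1 / 15 ∧
  2 * a < d ∧ 0 ≤ w ∧ d + w < e ∧ ∀ᶠ n : ℕ in atTop, ∀ x : ℝ, (n : ℝ) ^ (-(1 / 6) + e) < x →
    x ≤ (n : ℝ) ^ (-a) → AntiN n β →
      ¬ PtN n β ((n : ℝ) ^ (-w) * x ^ 2) ((n : ℝ) ^ (1 - d)) x

/-- the moment law as a lower bound -/
theorem Lg_up {β : ℝ} (hβ : 1 < β) {a : ℝ} (ha : a < 1 / 15) :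
    ∃ c δ : ℝ, 0 < c ∧ 0 < δ ∧ ∀ᶠ n : ℕ in atTop, ∀ x : ℝ, (n : ℝ) ^ (-a) ≤ x → x ≤ δ →
      c * n * x ^ 6 ≤ Lg n β x := by
  obtain ⟨Λ, -, hΛ⟩ := H737.bounds4
  obtain ⟨hL, p, D, -, hm, h3⟩ := hΛ β hβ
  obtain ⟨δ, hδ, hn⟩ := hm (Λ β / 2) (by positivity) a ha
  refine ⟨Λ β / 2, δ, by positivity, hδ, ?_⟩
  filter_upwards [hn, eventually_ge_atTop 1] with n h1 h4 x hxa hxδ
  have hn0 : (0 : ℝ) < n := by exact_mod_cast h4
  have hx0 : 0 < x := (Real.rpow_pos_of_pos hn0 _).trans_le hxa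
  have h5 := (abs_le.1 (h1.1 x hxa hxδ)).1
  have h6 := (h3 n h4).1
  unfold Lg
  obtain ⟨m, hmm⟩ : ∃ m, m = ∫ g, freeEnergy n β g ∂(disorder n) := ⟨_, rfl⟩
  rw [← hmm] at h6 ⊢
  have hF : Integrable (fun g => Real.exp (x * freeEnergy n β g)) (disorder n) := by
    have hd : disorder n = gI (Pair n) := rfl
    rw [hd, fE_lz]
    exact ((c11_lz (β / √n) (SkS (n := n))).eg_exp x).integrable
  have hp : 0 < ∫ g, Real.exp (x * freeEnergy n β g) ∂(disorder n) :=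
    integral_exp_pos hF
  have e1 : ∀ b g, Real.exp (x * (freeEnergy n β g - b)) =
      Real.exp (-(x * b)) * Real.exp (x * freeEnergy n β g) := fun b g => by
    rw [← Real.exp_add]
    congr 1
    ring
  simp_rw [e1] at h5 ⊢
  rw [integral_const_mul, Real.log_mul (Real.exp_pos _).ne' hp.ne', Real.log_exp] at h5 ⊢
  have h7 : x * m ≤ x * (n * p) := mul_le_mul_of_nonneg_left (by linarith) hx0.le
  linarith

/-- **The lower bound of the exponential moment on all scales.** -/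
theorem lo_of_point {β : ℝ} (hβ : 1 < β) (hA : ∀ᶠ n : ℕ in atTop, AntiN n β)
    (hrows : NoPt β) : LoM β := by
  intro e0 he0
  obtain ⟨e, he⟩ : ∃ e : ℝ, e = min e0 (1 / 12) := ⟨_, rfl⟩
  have he1 : e ≤ e0 := by rw [he]; exact min_le_left _ _
  have he2 : e ≤ 1 / 12 := by rw [he]; exact min_le_right _ _
  have he3 : 0 < e := by rw [he]; exact lt_min he0 (by norm_num)
  obtain ⟨a, d, w, h1, h2, h3, h4, h5, h6⟩ := hrows e he3 he2
  obtain ⟨c, δ, hc, hδ, hup⟩ := Lg_up hβ h2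
  refine ⟨δ, hδ, ?_⟩
  filter_upwards [point_N hβ h1 h2 h3 h4, hA, h6, hup, ev_small (a := e0) (δ := c) he0 hc,
    ev_big (a := e - (d + w)) (C := 8) (by linarith), eventually_ge_atTop 1]
    with n k1 k2 k3 k4 k5 k6 k7 x hx hxδ
  have hn1 : (1 : ℝ) ≤ n := by exact_mod_cast k7
  have hn0 : (0 : ℝ) < n := by linarith
  have hx0 : 0 < x := (Real.rpow_pos_of_pos hn0 _).trans_le hx
  rcases le_or_gt x ((n : ℝ) ^ (-a)) with hxa | hxa
  · have hx1 : x ≤ 1 :=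
      hxa.trans (Real.rpow_le_one_of_one_le_of_nonpos hn1 (by linarith))
    have hw0 : 0 < (n : ℝ) ^ (-w) := Real.rpow_pos_of_pos hn0 _
    have hw1 : (n : ℝ) ^ (-w) ≤ 1 := Real.rpow_le_one_of_one_le_of_nonpos hn1 (by linarith)
    have key : (n : ℝ) ^ (1 - d) * ((n : ℝ) ^ (-w) * x ^ 2) * x ^ 3 / 8 ≤
        Dn n β x ((n : ℝ) ^ (-w) * x ^ 2) := by
      by_contra hcon
      push Not at hcon
      obtain ⟨y, b1, b2, b3⟩ := k1 k2 x hx0 hxa hcon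
      have hxe : (n : ℝ) ^ (-(1 / 6) + e) ≤ x :=
        (Real.rpow_le_rpow_of_exponent_le hn1 (by linarith)).trans hx
      exact k3 y (hxe.trans_lt b1) b2 k2 b3
    have hs1 : (n : ℝ) ^ (-w) * x ^ 2 ≤ 1 := by
      have c3 : x ^ 2 ≤ 1 := pow_le_one₀ hx0.le hx1
      calc (n : ℝ) ^ (-w) * x ^ 2 ≤ 1 * 1 := mul_le_mul hw1 c3 (by positivity) (by norm_num)
        _ = 1 := by norm_num
    have h7 := log_ge_Dn n β hx0 (s := (n : ℝ) ^ (-w) * x ^ 2) (by positivity) hs1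
    have h8 := mul_le_mul_of_nonneg_left key hx0.le
    refine le_trans ?_ (h8.trans h7)
    have e1 : x * ((n : ℝ) ^ (1 - d) * ((n : ℝ) ^ (-w) * x ^ 2) * x ^ 3 / 8) =
        (n : ℝ) ^ (1 - d) * (n : ℝ) ^ (-w) / 8 * x ^ 6 := by ring
    rw [e1]
    refine mul_le_mul_of_nonneg_right ?_ (by positivity)
    rw [le_div_iff₀ (by norm_num), ← Real.rpow_add hn0]
    have e2 : (1 - d + -w : ℝ) = (1 - e) + (e - (d + w)) := by ring
    rw [e2, Real.rpow_add hn0]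
    have e3 : (n : ℝ) ^ (1 - e0) ≤ (n : ℝ) ^ (1 - e) :=
      Real.rpow_le_rpow_of_exponent_le hn1 (by linarith)
    exact mul_le_mul e3 k6.le (by norm_num) (Real.rpow_nonneg hn0.le _)
  · refine le_trans ?_ (k4 x hxa.le hxδ)
    have e1 : (n : ℝ) ^ (1 - e0) = (n : ℝ) ^ (-e0) * n := by
      nth_rewrite 3 [← Real.rpow_one (n : ℝ)]
      rw [← Real.rpow_add hn0]
      congr 1
      ring
    rw [e1]
    have h9 : (n : ℝ) ^ (-e0) * n * x ^ 6 ≤ c * n * x ^ 6 := by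
      refine mul_le_mul_of_nonneg_right (mul_le_mul_of_nonneg_right k5.le hn0.le) (by positivity)
    exact h9

/-- **The variance.** -/
theorem var_of_lo {β : ℝ} (h : LoM β) :
    ∀ γ : ℝ, γ < 1 / 3 → ∀ᶠ n : ℕ in atTop, (n : ℝ) ^ γ ≤ Var[freeEnergy n β; disorder n] := by
  intro γ hγ
  obtain ⟨e, he⟩ : ∃ e : ℝ, e = min ((1 / 3 - γ) / 4) (1 / 12) := ⟨_, rfl⟩
  have he1 : e ≤ (1 / 3 - γ) / 4 := by rw [he]; exact min_le_left _ _
  have he2 : e ≤ 1 / 12 := by rw [he]; exact min_le_right _ _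
  have he0 : 0 < e := by rw [he]; exact lt_min (by linarith) (by norm_num)
  obtain ⟨δ, hδ, hn⟩ := h e he0
  filter_upwards [hn, ev_small (a := 1 / 6 - e) (δ := δ) (by linarith) hδ,
    ev_big (a := 5 * e) (C := 2) (by linarith), ev_big (a := 1 / 6 - e) (C := 36) (by linarith),
    ev_big (a := 1 / 3 - 2 * e - γ) (C := 36 ^ 2) (by linarith), eventually_ge_atTop 1]
    with n k1 k2 k3 k4 k5 k6
  have hn1 : (1 : ℝ) ≤ n := by exact_mod_cast k6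
  have hn0 : (0 : ℝ) < n := by linarith
  obtain ⟨x, hx⟩ : ∃ x, x = (n : ℝ) ^ (-(1 / 6) + e) := ⟨_, rfl⟩
  have hx0 : 0 < x := by rw [hx]; exact Real.rpow_pos_of_pos hn0 _
  have h1 := k1 x (by rw [hx]) (by
    rw [hx]
    have e1 : (-(1 / 6) + e : ℝ) = -(1 / 6 - e) := by ring
    rw [e1]
    exact k2.le)
  have h2 : (n : ℝ) ^ (1 - e) * x ^ 6 = (n : ℝ) ^ (5 * e) := by
    rw [hx, ← Real.rpow_natCast, ← Real.rpow_mul hn0.le, ← Real.rpow_add hn0]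
    congr 1
    push_cast
    ring
  rw [h2] at h1
  have h3 := H641.sd_of_tail n β hx0 (show 3 / 2 < _ from lt_of_lt_of_le (by linarith) h1)
  have e4 : 1 / (18 * x) = (n : ℝ) ^ (1 / 6 - e) / 18 := by
    have e5 : (-(1 / 6) + e : ℝ) = -(1 / 6 - e) := by ring
    rw [hx, e5, Real.rpow_neg hn0.le]
    field_simp
  rw [e4] at h3
  have key : (n : ℝ) ^ (1 / 6 - e) / 36 ≤ √(Var[freeEnergy n β; disorder n]) := by linarith
  have h7 : ((n : ℝ) ^ (1 / 6 - e) / 36) ^ 2 ≤ Var[freeEnergy n β; disorder n] := by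
    have := pow_le_pow_left₀ (by positivity) key 2
    rwa [Real.sq_sqrt (variance_nonneg _ _)] at this
  refine le_trans ?_ h7
  rw [div_pow, le_div_iff₀ (by norm_num), ← Real.rpow_natCast ((n : ℝ) ^ (1 / 6 - e)),
    ← Real.rpow_mul hn0.le]
  have e1 : ((1 / 6 - e) * ((2 : ℕ) : ℝ) : ℝ) = γ + (1 / 3 - 2 * e - γ) := by push_cast; ring
  rw [e1, Real.rpow_add hn0]
  exact mul_le_mul_of_nonneg_left k5.le (by positivity)

end Vale.Agent.P146.H432
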