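import Vale.Agent.P146.H767.DDs

/-!
# P146: the crossing point

`D` lies above its tangents, starts below the cubic `c x³` and ends above it.  At the first crossing
point `x` one has `D x = c x³` and the slope of `D` at `x` is at least `3 c x²`.
-/

open MeasureTheory ProbabilityTheory Filter Topology

namespace Vale.Agent.P146.H432

open Vale.Agent.P157.Lv Vale.Agent.P146.H425 Vale.Agent.P146.H332 Vale.Agent.P146.H325
open Vale.Agent.P146.R1 Vale.Agent.P146.H767 Vale.Agent.P146.H522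
open Vale.Agent.P146.H946 (Dz)

set_option linter.unusedSectionVars false

/-- **The first crossing of a cubic by a function that lies above its tangents.** -/
theorem cross {D G : ℝ → ℝ} {x1 X c : ℝ} (hX : x1 ≤ X)
    (tan : ∀ x y, x1 ≤ x → x ≤ X → x1 ≤ y → y ≤ X → D x + (y - x) * G x ≤ D y)
    (l1 : D x1 < c * x1 ^ 3) (lX : c * X ^ 3 ≤ D X) :
    ∃ x, x1 < x ∧ x ≤ X ∧ D x = c * x ^ 3 ∧ 3 * c * x ^ 2 ≤ G x ∧
      ∀ y, x1 ≤ y → y < x → D y < c * y ^ 3 := by
  have hlt : x1 < X := by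
    rcases hX.eq_or_lt with rfl | h
    · linarith
    · exact h
  -- bounds of the slope
  have gm : ∀ x y, x1 ≤ x → x < y → y ≤ X → G x ≤ G y := by
    intro x y h1 h2 h3
    have a1 := tan x y h1 (h2.le.trans h3) (h1.trans h2.le) h3
    have a2 := tan y x (h1.trans h2.le) h3 h1 (h2.le.trans h3)
    have a3 : (y - x) * G x ≤ (y - x) * G y := by linarith
    exact le_of_mul_le_mul_left a3 (by linarith)
  obtain ⟨M, hM⟩ : ∃ M : ℝ, M = max |G x1| |G X| := ⟨_, rfl⟩
  have hM0 : 0 ≤ M := by rw [hM]; exact (abs_nonneg _).trans (le_max_left _ _)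
  have gb : ∀ x, x1 ≤ x → x ≤ X → |G x| ≤ M := by
    intro x h1 h2
    have l : G x1 ≤ G x := by
      rcases h1.eq_or_lt with rfl | h
      · exact le_rfl
      · exact gm _ _ le_rfl h h2
    have u : G x ≤ G X := by
      rcases h2.eq_or_lt with rfl | h
      · exact le_rfl
      · exact gm _ _ h1 h le_rfl
    rw [abs_le, hM]
    exact ⟨by
      have := (neg_abs_le (G x1))
      have := le_max_left |G x1| |G X|
      linarith, by
      have := le_abs_self (G X)
      have := le_max_right |G x1| |G X|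
      linarith⟩
  have lip : ∀ x y, x1 ≤ x → x ≤ X → x1 ≤ y → y ≤ X → |D x - D y| ≤ M * |x - y| := by
    have one : ∀ x y, x1 ≤ x → x ≤ X → x1 ≤ y → y ≤ X → D x - D y ≤ M * |x - y| := by
      intro x y h1 h2 h3 h4
      have a1 := tan x y h1 h2 h3 h4
      have a2 : (x - y) * G x ≤ |x - y| * M := by
        refine (le_abs_self _).trans ?_
        rw [abs_mul]
        exact mul_le_mul_of_nonneg_left (gb x h1 h2) (abs_nonneg _)
      nlinarith
    intro x y h1 h2 h3 h4
    rw [abs_le]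
    have a1 := one x y h1 h2 h3 h4
    have a2 := one y x h3 h4 h1 h2
    rw [abs_sub_comm y x] at a2
    exact ⟨by linarith, a1⟩
  have hcD : ContinuousOn D (Set.Icc x1 X) := by
    have : LipschitzOnWith (Real.toNNReal M) D (Set.Icc x1 X) := by
      refine LipschitzOnWith.of_dist_le_mul fun x hx y hy => ?_
      rw [Real.dist_eq, Real.dist_eq, Real.coe_toNNReal _ hM0]
      exact lip x y hx.1 hx.2 hy.1 hy.2
    exact this.continuousOn
  have hcf : ContinuousOn (fun x => D x - c * x ^ 3) (Set.Icc x1 X) :=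
    hcD.sub (by fun_prop)
  set S : Set ℝ := Set.Icc x1 X ∩ (fun x => D x - c * x ^ 3) ⁻¹' Set.Ici 0 with hS
  have hScl : IsClosed S := hcf.preimage_isClosed_of_isClosed isClosed_Icc isClosed_Ici
  have hSne : S.Nonempty := ⟨X, ⟨hX, le_rfl⟩, by
    simp only [Set.mem_preimage, Set.mem_Ici]; linarith⟩
  have hSb : BddBelow S := ⟨x1, fun y hy => hy.1.1⟩
  have hxS : sInf S ∈ S := hScl.csInf_mem hSne hSb
  obtain ⟨x, hx⟩ : ∃ x, x = sInf S := ⟨_, rfl⟩
  rw [← hx] at hxS
  have hmin : ∀ y, x1 ≤ y → y < x → D y < c * y ^ 3 := by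
    intro y h1 h2
    by_contra hcon
    push Not at hcon
    have hyS : y ∈ S := ⟨⟨h1, h2.le.trans hxS.1.2⟩, by
      simp only [Set.mem_preimage, Set.mem_Ici]; linarith⟩
    have := csInf_le hSb hyS
    linarith
  have hf0 : 0 ≤ D x - c * x ^ 3 := hxS.2
  have hx1 : x1 < x := by
    rcases hxS.1.1.eq_or_lt with h | h
    · rw [← h] at hf0; linarith
    · exact h
  have hfx : D x = c * x ^ 3 := by
    have hiv := intermediate_value_Icc (f := fun x => D x - c * x ^ 3) hx1.le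
      (hcf.mono (Set.Icc_subset_Icc le_rfl hxS.1.2))
    have h0 : (0 : ℝ) ∈ Set.Icc (D x1 - c * x1 ^ 3) (D x - c * x ^ 3) := ⟨by linarith, hf0⟩
    obtain ⟨z, hz, hz0⟩ := hiv h0
    simp only at hz0
    rcases hz.2.eq_or_lt with h | h
    · rw [← h]; linarith
    · have := hmin z hz.1 h
      linarith
  refine ⟨x, hx1, hxS.1.2, hfx, ?_, hmin⟩
  have hev : ∀ᶠ y in 𝓝[<] x, c * (x ^ 2 + x * y + y ^ 2) ≤ G x := by
    filter_upwards [Ioo_mem_nhdsLT hx1] with y hy
    have a1 := tan x y hx1.le hxS.1.2 hy.1.le (hy.2.le.trans hxS.1.2)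
    have a2 := hmin y hy.1.le hy.2
    have a3 : (x - y) * (c * (x ^ 2 + x * y + y ^ 2)) ≤ (x - y) * G x := by
      have e : (x - y) * (c * (x ^ 2 + x * y + y ^ 2)) = c * x ^ 3 - c * y ^ 3 := by ring
      rw [e]
      nlinarith
    exact le_of_mul_le_mul_left a3 (by have := hy.2; linarith)
  have hlim : Tendsto (fun y => c * (x ^ 2 + x * y + y ^ 2)) (𝓝[<] x)
      (𝓝 (c * (x ^ 2 + x * x + x ^ 2))) := by
    have : Continuous fun y : ℝ => c * (x ^ 2 + x * y + y ^ 2) := by fun_prop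
    exact (this.tendsto x).mono_left nhdsWithin_le_nhds
  have := le_of_tendsto hlim hev
  linarith

section gen

variable {κ : Type} [Fintype κ] {F : (κ → ℝ) → ℝ} {D : κ → (κ → ℝ) → ℝ} {B L : ℝ}

/-- **The crossing point of the functional of one window.** -/
theorem cross_DD (h : C11 F D B L) (hv : Cv F) {s x1 X c : ℝ} (h1 : 0 < x1) (hX : x1 ≤ X)
    (hs : 0 ≤ s) (hs1 : s ≤ 1) (l1 : DD x1 s F < c * x1 ^ 3) (lX : c * X ^ 3 ≤ DD X s F)
    (conc : ∀ x, x1 ≤ x → x ≤ X → x / 2 * (s * Q0 x s F D) ≤ DD x s F) :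
    ∃ x, x1 < x ∧ x ≤ X ∧ DD x s F = c * x ^ 3 ∧
      3 * c * x ^ 2 ≤ 1 / 2 * ∫ t in (1 - s)..1, Qin x s t F D ∧
      s * Q0 x s F D ≤ 2 * c * x ^ 2 ∧ ∀ y, x1 ≤ y → y < x → DD y s F < c * y ^ 3 := by
  obtain ⟨x, a1, a2, a3, a4, a5⟩ := cross (D := fun x => DD x s F)
    (G := fun x => 1 / 2 * ∫ t in (1 - s)..1, Qin x s t F D) (c := c) hX
    (fun x y b1 _ b3 _ => by
      have := DD_tan (D := D) h hv (h1.trans_le b1) (h1.trans_le b3) hs hs1
      linarith) l1 lX
  refine ⟨x, a1, a2, a3, a4, ?_, a5⟩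
  have h3 := conc x a1.le a2
  have hx : 0 < x := h1.trans a1
  rw [a3] at h3
  have e : c * x ^ 3 = x / 2 * (2 * c * x ^ 2) := by ring
  rw [e] at h3
  exact le_of_mul_le_mul_left h3 (by positivity)

end gen

/-! ### the free energy -/

section sk

variable (n : ℕ) (β : ℝ)

/-- the functional of one window of the free energy -/
noncomputable def Dn (x s : ℝ) : ℝ := DD x s (lz (β / √n) (SkS (n := n)))

/-- the mean squared gradient at the base time -/
noncomputable def Kn (x s : ℝ) : ℝ := Q0 x s (lz (β / √n) (SkS (n := n))) (Dz (β / √n))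

/-- the mean squared gradient inside the window -/
noncomputable def Rn (x s t : ℝ) : ℝ := Qin x s t (lz (β / √n) (SkS (n := n))) (Dz (β / √n))

lemma Kn_eq (x s : ℝ) : Kn n β x s = Qw n β x (1 - s) := rfl

lemma fE_lz : freeEnergy n β = lz (β / √n) (SkS (n := n)) := by
  funext g
  exact H332.freeEnergy_eq β g

/-- **The Laplace transform from the functional of one window.** -/
theorem log_ge_Dn {x s : ℝ} (hx : 0 < x) (hs : 0 ≤ s) (hs1 : s ≤ 1) :
    x * Dn n β x s ≤ Real.log (∫ g, Real.exp (x * (freeEnergy n β g -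
        ∫ h, freeEnergy n β h ∂(disorder n))) ∂(disorder n)) := by
  have hd : disorder n = gI (Pair n) := rfl
  rw [hd, fE_lz]
  have h := c11_lz (β / √n) (SkS (n := n))
  have h1 := DD_le_W h hx hs hs1
  rw [W_one_zero] at h1
  unfold Dn
  obtain ⟨m, hm⟩ : ∃ m, m = ∫ h, lz (β / √n) (SkS (n := n)) h ∂(gI (Pair n)) := ⟨_, rfl⟩
  rw [← hm] at h1 ⊢
  have hp : 0 < ∫ z, Real.exp (x * lz (β / √n) (SkS (n := n)) z) ∂(gI (Pair n)) :=
    integral_exp_pos (h.eg_exp x).integrable
  have e1 : ∀ g, Real.exp (x * (lz (β / √n) (SkS (n := n)) g - m)) =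
      Real.exp (-(x * m)) * Real.exp (x * lz (β / √n) (SkS (n := n)) g) := fun g => by
    rw [← Real.exp_add]
    congr 1
    ring
  simp_rw [e1]
  rw [integral_const_mul, Real.log_mul (Real.exp_pos _).ne' hp.ne', Real.log_exp]
  have h2 := mul_le_mul_of_nonneg_left h1 hx.le
  refine h2.trans (le_of_eq ?_)
  field_simp
  ring

/-- The value of the functional of the full window. -/
theorem Dn_one (x : ℝ) : Dn n β x 1 = 1 / x * Real.log (∫ g,
    Real.exp (x * freeEnergy n β g) ∂(disorder n)) - ∫ g, freeEnergy n β g ∂(disorder n) := by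
  have hd : disorder n = gI (Pair n) := rfl
  rw [hd, fE_lz]
  unfold Dn
  rw [DD_eq, ← W_one_zero]
  simp

/-- **The crossing point**: below the threshold the variance is large, or the functional crosses
the cubic `c x³`. -/
theorem star_n {s x1 X c : ℝ} (h1 : 0 < x1) (hX : x1 ≤ X) (hs : 0 ≤ s) (hs1 : s ≤ 1)
    (conc : ∀ x, x1 ≤ x → x ≤ X → x / 2 * (s * Kn n β x s) ≤ Dn n β x s)
    (lX : c * X ^ 3 ≤ Dn n β X s) (hc : 3 / 2 < c * x1 ^ 4) :
    1 / (18 * x1) - 1 ≤ √(Var[freeEnergy n β; disorder n]) ∨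
    ∃ x, x1 < x ∧ x ≤ X ∧ Dn n β x s = c * x ^ 3 ∧
      3 * c * x ^ 2 ≤ 1 / 2 * ∫ t in (1 - s)..1, Rn n β x s t ∧
      s * Kn n β x s ≤ 2 * c * x ^ 2 ∧ ∀ y, x1 ≤ y → y < x → Dn n β y s < c * y ^ 3 := by
  rcases le_or_gt (c * x1 ^ 3) (Dn n β x1 s) with h | h
  · left
    refine H641.sd_of_tail n β h1 (hc.trans_le ?_)
    refine le_trans ?_ (log_ge_Dn n β h1 hs hs1)
    have := mul_le_mul_of_nonneg_left h h1.le
    refine le_trans (le_of_eq ?_) this
    ring
  · right
    exact cross_DD (c11_lz (β / √n) (SkS (n := n))) (cv_lz (β / √n) (SkS (n := n))) h1 hX hs hs1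
      h lX conc

end sk

end Vale.Agent.P146.H432
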