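import Vale.Agent.P146.H432.XStar
import Vale.Agent.P146.H737.VB

/-!
# P146: the crossing point, all constants

From the concavity of `s ↦ D(x, s)` (hypothesis `ConcN`) and the moment law: for large `n`, either
the variance is at least `n^{1/3-ε}` or the functional of the window of length `n^{-1/3+s'}` crosses
the cubic `n^{1-d} s x³` at a point `x` between `n^{-1/6+e}` and `n^{-a}`, with slope at least three
times the value over `x` there.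
-/

open MeasureTheory ProbabilityTheory Filter Topology

namespace Vale.Agent.P146.H432

open Vale.Agent.P157.Lv Vale.Agent.P146.H425 Vale.Agent.P146.H332 Vale.Agent.P146.H325
open Vale.Agent.P146.R1 Vale.Agent.P146.H767 Vale.Agent.P146.H522

/-- The two consequences of the concavity of `s ↦ D(x, s)`. -/
def ConcN (n : ℕ) (β : ℝ) : Prop := ∀ x, 0 < x → x ≤ 1 → ∀ s, 0 ≤ s → s ≤ 1 →
  x / 2 * (s * Kn n β x s) ≤ Dn n β x s ∧ s * Dn n β x 1 ≤ Dn n β x s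

lemma ev_small {a δ : ℝ} (ha : 0 < a) (hδ : 0 < δ) : ∀ᶠ n : ℕ in atTop, (n : ℝ) ^ (-a) < δ := by
  have h := (tendsto_rpow_neg_atTop ha).comp tendsto_natCast_atTop_atTop
  exact h.eventually_lt_const hδ

lemma ev_big {a C : ℝ} (ha : 0 < a) : ∀ᶠ n : ℕ in atTop, C < (n : ℝ) ^ a := by
  have h := (tendsto_rpow_atTop ha).comp tendsto_natCast_atTop_atTop
  exact h.eventually_gt_atTop C

/-- The functional of the full window at a small power of `n`. -/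
theorem full_ge {β : ℝ} (hβ : 1 < β) {a : ℝ} (ha0 : 0 < a) (ha : a < 1 / 15) :
    ∃ c : ℝ, 0 < c ∧ ∀ᶠ n : ℕ in atTop,
      c * n * ((n : ℝ) ^ (-a)) ^ 5 ≤ Dn n β ((n : ℝ) ^ (-a)) 1 := by
  obtain ⟨Λ, -, hΛ⟩ := H737.bounds4
  obtain ⟨hL, p, D, -, hm, h3⟩ := hΛ β hβ
  obtain ⟨δ, hδ, hn⟩ := hm (Λ β / 2) (by positivity) a ha
  refine ⟨Λ β / 2, by positivity, ?_⟩
  filter_upwards [hn, ev_small ha0 hδ, eventually_ge_atTop 1] with n h1 h2 h4
  have hn0 : (0 : ℝ) < n := by exact_mod_cast h4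
  obtain ⟨x, hx⟩ : ∃ x, x = (n : ℝ) ^ (-a) := ⟨_, rfl⟩
  have hx0 : 0 < x := by rw [hx]; exact Real.rpow_pos_of_pos hn0 _
  have h5 := h1.1 x hx.ge (by rw [hx]; exact h2.le)
  have h6 := (h3 n h4).1
  rw [← hx, Dn_one]
  obtain ⟨m, hmm⟩ : ∃ m, m = ∫ g, freeEnergy n β g ∂(disorder n) := ⟨_, rfl⟩
  rw [← hmm] at h6 ⊢
  have hF : Integrable (fun g => Real.exp (x * freeEnergy n β g)) (disorder n) := by
    have hd : disorder n = gI (Pair n) := rfl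
    rw [hd, fE_lz]
    exact ((c11_lz (β / √n) (SkS (n := n))).eg_exp x).integrable
  have hp : 0 < ∫ g, Real.exp (x * freeEnergy n β g) ∂(disorder n) :=
    integral_exp_pos hF
  have e1 : ∀ g, Real.exp (x * (freeEnergy n β g - n * p)) =
      Real.exp (-(x * (n * p))) * Real.exp (x * freeEnergy n β g) := fun g => by
    rw [← Real.exp_add]
    congr 1
    ring
  simp_rw [e1] at h5
  rw [integral_const_mul, Real.log_mul (Real.exp_pos _).ne' hp.ne', Real.log_exp] at h5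
  obtain ⟨A, hA⟩ : ∃ A, A = Real.log (∫ g, Real.exp (x * freeEnergy n β g) ∂(disorder n)) :=
    ⟨_, rfl⟩
  rw [← hA] at h5 ⊢
  have h7 := (abs_le.1 h5).1
  have h8 : x * (n * p) + Λ β / 2 * n * x ^ 6 ≤ A := by linarith
  have h9 : n * p + Λ β / 2 * n * x ^ 5 ≤ 1 / x * A := by
    rw [one_div, inv_mul_eq_div, le_div_iff₀ hx0]
    refine le_trans (le_of_eq ?_) h8
    ring
  linarith

/-- **The start.** -/
theorem start {β : ℝ} (hβ : 1 < β) {a d : ℝ} (ha0 : 0 < a) (ha : a < 1 / 15) (hd : 2 * a < d) :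
    ∀ᶠ n : ℕ in atTop, ConcN n β → ∀ s, 0 ≤ s → s ≤ 1 →
      (n : ℝ) ^ (1 - d) * s * ((n : ℝ) ^ (-a)) ^ 3 ≤ Dn n β ((n : ℝ) ^ (-a)) s := by
  obtain ⟨c, hc, h⟩ := full_ge hβ ha0 ha
  filter_upwards [h, ev_small (a := d - 2 * a) (δ := c) (by linarith) hc,
    ev_small (a := a) (δ := 1) ha0 one_pos, eventually_ge_atTop 1] with n h1 h2 h3 h4 hC s hs hs1
  have hn0 : (0 : ℝ) < n := by exact_mod_cast h4
  have hx0 : 0 < (n : ℝ) ^ (-a) := Real.rpow_pos_of_pos hn0 _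
  refine le_trans ?_ (hC _ hx0 h3.le s hs hs1).2
  have h5 := mul_le_mul_of_nonneg_left h1 hs
  refine le_trans ?_ h5
  have e1 : (n : ℝ) ^ (1 - d) = (n : ℝ) ^ (-(d - 2 * a)) * n * ((n : ℝ) ^ (-a)) ^ 2 := by
    rw [← Real.rpow_natCast, ← Real.rpow_mul hn0.le, mul_assoc]
    nth_rewrite 3 [← Real.rpow_one (n : ℝ)]
    rw [← Real.rpow_add hn0, ← Real.rpow_add hn0]
    congr 1
    push_cast
    ring
  rw [e1]
  have h6 : (n : ℝ) ^ (-(d - 2 * a)) * (n * ((n : ℝ) ^ (-a)) ^ 5 * s) ≤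
      c * (n * ((n : ℝ) ^ (-a)) ^ 5 * s) := mul_le_mul_of_nonneg_right h2.le (by positivity)
  refine le_trans (le_of_eq ?_) (h6.trans (le_of_eq ?_)) <;> ring

/-- The facts at the crossing point `x`, for the window of length `s` and the level `δ n`. -/
def StarAt (n : ℕ) (β s c x : ℝ) : Prop :=
  Dn n β x s = c * s * x ^ 3 ∧
  3 * c * s * x ^ 2 ≤ 1 / 2 * ∫ t in (1 - s)..1, Rn n β x s t ∧
  Kn n β x s ≤ 2 * c * x ^ 2

/-- **The crossing point**, uniformly in the length `s` of the window and in the lower end. -/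
theorem star {β : ℝ} (hβ : 1 < β) {a d : ℝ} (ha0 : 0 < a) (ha : a < 1 / 15) (hd : 2 * a < d) :
    ∀ᶠ n : ℕ in atTop, ConcN n β → ∀ s x1 : ℝ, 0 < s → s ≤ 1 → 0 < x1 → x1 ≤ (n : ℝ) ^ (-a) →
      3 / 2 < (n : ℝ) ^ (1 - d) * s * x1 ^ 4 →
      1 / (18 * x1) - 1 ≤ √(Var[freeEnergy n β; disorder n]) ∨
      ∃ x, x1 < x ∧ x ≤ (n : ℝ) ^ (-a) ∧ StarAt n β s ((n : ℝ) ^ (1 - d)) x ∧
        ∀ y, x1 ≤ y → y < x → Dn n β y s < (n : ℝ) ^ (1 - d) * s * y ^ 3 := by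
  filter_upwards [start hβ ha0 ha hd, ev_small (a := a) (δ := 1) ha0 one_pos,
    eventually_ge_atTop 1] with n h1 h2 h4 hC s x1 hs hs1 hx1 hX hc
  have h5 := star_n n β (c := (n : ℝ) ^ (1 - d) * s) hx1 hX hs.le hs1
    (fun x b1 b2 => (hC x (hx1.trans_le b1) (b2.trans h2.le) s hs.le hs1).1)
    (h1 hC s hs.le hs1) hc
  rcases h5 with h | ⟨x, c1, c2, c3, c4, c5, c6⟩
  · exact Or.inl h
  · refine Or.inr ⟨x, c1, c2, ⟨c3, ?_, ?_⟩, c6⟩
    · refine le_trans (le_of_eq ?_) c4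
      ring
    · have e : 2 * ((n : ℝ) ^ (1 - d) * s) * x ^ 2 = s * (2 * (n : ℝ) ^ (1 - d) * x ^ 2) := by ring
      rw [e] at c5
      exact le_of_mul_le_mul_left c5 hs

/-- **The crossing point, powers of `n`.** -/
theorem star_pow {β : ℝ} (hβ : 1 < β) {a d e w : ℝ} (ha0 : 0 < a) (ha : a < 1 / 15)
    (hd : 2 * a < d) (he : e ≤ 1 / 6 - a) (hw : w ≤ 1 / 3) (hdw : d < 4 * e + w) :
    ∀ᶠ n : ℕ in atTop, ConcN n β →
      (n : ℝ) ^ (1 / 6 - e) / 36 ≤ √(Var[freeEnergy n β; disorder n]) ∨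
      ∃ x, (n : ℝ) ^ (-(1 / 6) + e) < x ∧ x ≤ (n : ℝ) ^ (-a) ∧
        StarAt n β ((n : ℝ) ^ (-(1 / 3) + w)) ((n : ℝ) ^ (1 - d)) x ∧
        ∀ y, (n : ℝ) ^ (-(1 / 6) + e) ≤ y → y < x → Dn n β y ((n : ℝ) ^ (-(1 / 3) + w)) <
          (n : ℝ) ^ (1 - d) * (n : ℝ) ^ (-(1 / 3) + w) * y ^ 3 := by
  filter_upwards [star hβ ha0 ha hd, ev_big (a := 4 * e + w - d) (C := 3 / 2) (by linarith),
    ev_big (a := 1 / 6 - e) (C := 36) (by linarith), eventually_ge_atTop 1] with n h1 h2 h3 h4 hC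
  have hn1 : (1 : ℝ) ≤ n := by exact_mod_cast h4
  have hn0 : (0 : ℝ) < n := by linarith
  have hx1 : 0 < (n : ℝ) ^ (-(1 / 6) + e) := Real.rpow_pos_of_pos hn0 _
  have k1 := h1 hC ((n : ℝ) ^ (-(1 / 3) + w)) ((n : ℝ) ^ (-(1 / 6) + e))
    (Real.rpow_pos_of_pos hn0 _) (Real.rpow_le_one_of_one_le_of_nonpos hn1 (by linarith)) hx1
    (Real.rpow_le_rpow_of_exponent_le hn1 (by linarith)) (by
      refine h2.trans_le (le_of_eq ?_)
      rw [← Real.rpow_natCast, ← Real.rpow_mul hn0.le, ← Real.rpow_add hn0, ← Real.rpow_add hn0]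
      congr 1
      push_cast
      ring)
  rcases k1 with h | h
  · left
    refine le_trans ?_ h
    have e1 : 1 / (18 * (n : ℝ) ^ (-(1 / 6) + e)) = (n : ℝ) ^ (1 / 6 - e) / 18 := by
      have e2 : (-(1 / 6) + e : ℝ) = -(1 / 6 - e) := by ring
      rw [e2, Real.rpow_neg hn0.le]
      field_simp
    rw [e1]
    linarith
  · exact Or.inr h

/-- **The interface**: the lower bound of the variance from the impossibility of the crossing
point. -/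
theorem third_of_rows {β : ℝ} (hβ : 1 < β) (hconc : ∀ᶠ n : ℕ in atTop, ConcN n β)
    (hrows : ∀ e : ℝ, 0 < e → ∃ a d w : ℝ, 0 < a ∧ a < 1 / 15 ∧ 2 * a < d ∧ w ≤ 1 / 3 ∧
      d < 4 * e + w ∧ ∀ᶠ n : ℕ in atTop, ∀ x : ℝ, (n : ℝ) ^ (-(1 / 6) + e) ≤ x →
        x ≤ (n : ℝ) ^ (-a) →
        ¬ StarAt n β ((n : ℝ) ^ (-(1 / 3) + w)) ((n : ℝ) ^ (1 - d)) x) :
    ∀ γ : ℝ, γ < 1 / 3 → ∀ᶠ n : ℕ in atTop, (n : ℝ) ^ γ ≤ Var[freeEnergy n β; disorder n] := by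
  intro γ hγ
  obtain ⟨e, he⟩ : ∃ e : ℝ, e = min ((1 / 3 - γ) / 4) (1 / 12) := ⟨_, rfl⟩
  have he1 : e ≤ (1 / 3 - γ) / 4 := by rw [he]; exact min_le_left _ _
  have he2 : e ≤ 1 / 12 := by rw [he]; exact min_le_right _ _
  have he0 : 0 < e := by rw [he]; exact lt_min (by linarith) (by norm_num)
  obtain ⟨a, d, w, h1, h2, h3, h4, h5, h6⟩ := hrows e he0
  filter_upwards [star_pow hβ h1 h2 h3 (by linarith) h4 h5, hconc, h6,
    ev_big (a := 1 / 3 - 2 * e - γ) (C := 36 ^ 2) (by linarith), eventually_ge_atTop 1]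
    with n k1 k2 k3 k4 k5
  have hn0 : (0 : ℝ) < n := by exact_mod_cast k5
  rcases k1 k2 with h | ⟨x, b1, b2, b3, -⟩
  · have h7 : ((n : ℝ) ^ (1 / 6 - e) / 36) ^ 2 ≤ Var[freeEnergy n β; disorder n] := by
      have := pow_le_pow_left₀ (by positivity) h 2
      rwa [Real.sq_sqrt (variance_nonneg _ _)] at this
    refine le_trans ?_ h7
    rw [div_pow, le_div_iff₀ (by norm_num), ← Real.rpow_natCast ((n : ℝ) ^ (1 / 6 - e)),
      ← Real.rpow_mul hn0.le]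
    have e1 : ((1 / 6 - e) * ((2 : ℕ) : ℝ) : ℝ) = γ + (1 / 3 - 2 * e - γ) := by push_cast; ring
    rw [e1, Real.rpow_add hn0]
    exact mul_le_mul_of_nonneg_left k4.le (by positivity)
  · exact absurd b3 (k3 x b1.le b2)

end Vale.Agent.P146.H432
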